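import Vale.Agent.P272.K.AMP.Pole.Near

/-! Pole, block B3: the barriers away from the pole. -/

open scoped Topology ContDiff
open Set Filter

noncomputable section

namespace Vale.Agent.P272.K.AMP.Pole

lemma inv_pow_le {r Q : ℝ} (hr : 0 < r) (h : r ≤ Q) (k : ℕ) : (Q ^ k)⁻¹ ≤ (r ^ k)⁻¹ :=
  inv_anti₀ (pow_pos hr k) (pow_le_pow_left₀ hr.le h k)

/-- **Block B3.** -/
theorem farEst {n : ℕ} {S B : ℝ → ℝ} {C : ℝ} (hn : 2 ≤ n) (hP : Profile n S B C) :
    FarEst n S := by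
  intro r Λ hr
  set a : ℝ := (n : ℝ) - 5 / 4 with ha
  have hn2 : (2 : ℝ) ≤ n := by exact_mod_cast hn
  have ha0 : 0 < a := by rw [ha]; linarith
  have hC0 : 0 ≤ C := zero_le_one.trans hP.one_le
  set C1 : ℝ := (r ^ (n - 1))⁻¹ + C * (r ^ n)⁻¹ * |Λ| + n * C * (r ^ (n + 1))⁻¹ * |Λ| with hC1
  set C2 : ℝ := r ^ (-a - 2) * ((|Λ| + 1) ^ 2 + a * ((|Λ| + 1) * |Λ| + (a + 1) * |Λ|)) with hC2
  have hC1n : 0 ≤ C1 := by positivity
  have hC2n : 0 ≤ C2 := by positivity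
  refine ⟨C1 + C2, by positivity, fun ε Q L N hε hε1 h2 hrQ hQΛ hL hN => ?_⟩
  have hQ : 0 < Q := hr.trans_le hrQ
  have hΛ : 0 ≤ Λ := hQ.le.trans hQΛ
  have hLa : |Λ| = Λ := abs_of_nonneg hΛ
  have hε2 : 0 < ε ^ 2 := by positivity
  constructor
  · -- the first barrier
    refine le_trans ?_ (le_add_of_nonneg_right hC2n)
    set y := Q / ε ^ 2 with hy
    have hy2 : 2 ≤ y := by rw [hy, le_div_iff₀ hε2]; linarith
    have hy0 : 0 < y := by linarith
    have hQy : Q = y * ε ^ 2 := by rw [hy]; field_simp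
    have hSy : S y = (y ^ (n - 1))⁻¹ := hP.S_far y (by linarith)
    have hB0 : B y = 0 := hP.B_supp y (Or.inr (by linarith))
    have hdS := hP.dS_le y (by linarith)
    have hode := hP.ode y
    have hS2 : |deriv (deriv S) y| ≤ n * C * (y ^ (n + 1))⁻¹ := by
      have e1 : deriv (deriv S) y = -(n * deriv S y) / y := by
        rw [eq_div_iff hy0.ne']; rw [hB0] at hode; linarith
      rw [e1, abs_div, abs_neg, abs_mul, abs_of_nonneg (Nat.cast_nonneg n), abs_of_pos hy0,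
        div_le_iff₀ hy0]
      have e2 : (n : ℝ) * C * (y ^ (n + 1))⁻¹ * y = n * (C * (y ^ n)⁻¹) := by
        rw [pow_succ]; field_simp
      rw [e2]
      exact mul_le_mul_of_nonneg_left hdS (Nat.cast_nonneg n)
    have hpm : ∀ k : ℕ, (ε ^ (2 * k))⁻¹ * (y ^ k)⁻¹ = (Q ^ k)⁻¹ := by
      intro k
      rw [hQy, mul_pow, ← pow_mul, mul_inv, mul_comm]
    have b1 : |Fe n S ε Q| ≤ (r ^ (n - 1))⁻¹ := by
      unfold Fe
      rw [← hy, hSy, hpm, abs_of_nonneg (by positivity)]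
      exact inv_pow_le hr hrQ _
    have b2 : |deriv (Fe n S ε) Q| ≤ C * (r ^ n)⁻¹ := by
      rw [deriv_Fe n hP.smS, ← hy]
      have e1 : (ε ^ (2 * (n - 1)))⁻¹ * (deriv S y / ε ^ 2) = (ε ^ (2 * n))⁻¹ * deriv S y := by
        rw [pow_split hn, mul_inv]; ring
      rw [e1, abs_mul, abs_of_nonneg (by positivity)]
      calc (ε ^ (2 * n))⁻¹ * |deriv S y| ≤ (ε ^ (2 * n))⁻¹ * (C * (y ^ n)⁻¹) :=
            mul_le_mul_of_nonneg_left hdS (by positivity)
        _ = C * (Q ^ n)⁻¹ := by rw [← hpm]; ring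
        _ ≤ C * (r ^ n)⁻¹ := mul_le_mul_of_nonneg_left (inv_pow_le hr hrQ _) hC0
    have b3 : |deriv (deriv (Fe n S ε)) Q| ≤ n * C * (r ^ (n + 1))⁻¹ := by
      rw [deriv2_Fe n hP.smS, ← hy]
      have e1 : (ε ^ (2 * (n - 1)))⁻¹ * (deriv (deriv S) y / ε ^ 2 / ε ^ 2) =
          (ε ^ (2 * (n + 1)))⁻¹ * deriv (deriv S) y := by
        have : ε ^ (2 * (n + 1)) = ε ^ (2 * (n - 1)) * ε ^ 2 * ε ^ 2 := by
          rw [← pow_add, ← pow_add]; congr 1; omega
        rw [this, mul_inv, mul_inv]; ring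
      rw [e1, abs_mul, abs_of_nonneg (by positivity)]
      calc (ε ^ (2 * (n + 1)))⁻¹ * |deriv (deriv S) y| ≤
            (ε ^ (2 * (n + 1)))⁻¹ * (n * C * (y ^ (n + 1))⁻¹) :=
            mul_le_mul_of_nonneg_left hS2 (by positivity)
        _ = n * C * (Q ^ (n + 1))⁻¹ := by rw [← hpm]; ring
        _ ≤ n * C * (r ^ (n + 1))⁻¹ :=
            mul_le_mul_of_nonneg_left (inv_pow_le hr hrQ _) (by positivity)
    have b4 : |opE (Fe n S ε) Q L N| ≤ |Fe n S ε Q| + (|deriv (Fe n S ε) Q| * |L| +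
        |deriv (deriv (Fe n S ε)) Q| * |N|) := by
      unfold opE
      calc _ ≤ |Fe n S ε Q| + |deriv (Fe n S ε) Q * L + deriv (deriv (Fe n S ε)) Q * N| :=
            abs_sub _ _
        _ ≤ _ := by
            have := abs_add_le (deriv (Fe n S ε) Q * L) (deriv (deriv (Fe n S ε)) Q * N)
            rw [abs_mul, abs_mul] at this
            linarith
    have b5 : |deriv (Fe n S ε) Q| * |L| ≤ C * (r ^ n)⁻¹ * |Λ| :=
      mul_le_mul b2 (hL.trans hLa.ge) (abs_nonneg _) (by positivity)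
    have b6 : |deriv (deriv (Fe n S ε)) Q| * |N| ≤ n * C * (r ^ (n + 1))⁻¹ * |Λ| :=
      mul_le_mul b3 (hN.trans hLa.ge) (abs_nonneg _) (by positivity)
    rw [hC1]; linarith
  · -- the second barrier
    refine le_trans ?_ (le_add_of_nonneg_left hC1n)
    set s := Q + ε ^ 2 with hs
    have hs0 : 0 < s := by positivity
    have hrs : r ≤ s := by linarith
    have hsΛ : s ≤ |Λ| + 1 := by
      have : ε ^ 2 ≤ 1 := pow_le_one₀ hε.le hε1
      rw [hLa]; linarith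
    rw [opE_He n hs0, ← ha, ← hs, abs_mul]
    have c1 : |s ^ (-a - 2)| ≤ r ^ (-a - 2) := by
      rw [abs_of_nonneg (Real.rpow_nonneg hs0.le _)]
      exact Real.rpow_le_rpow_of_nonpos hr hrs (by linarith)
    have c2 : |s ^ 2 + a * (s * L - (a + 1) * N)| ≤
        (|Λ| + 1) ^ 2 + a * ((|Λ| + 1) * |Λ| + (a + 1) * |Λ|) := by
      have d1 : |s * L| ≤ (|Λ| + 1) * |Λ| := by
        rw [abs_mul, abs_of_pos hs0]
        exact mul_le_mul hsΛ (hL.trans hLa.ge) (abs_nonneg _) (by positivity)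
      have d2 : |(a + 1) * N| ≤ (a + 1) * |Λ| := by
        rw [abs_mul, abs_of_pos (by linarith : 0 < a + 1)]
        exact mul_le_mul_of_nonneg_left (hN.trans hLa.ge) (by linarith)
      have d3 : |a * (s * L - (a + 1) * N)| ≤ a * ((|Λ| + 1) * |Λ| + (a + 1) * |Λ|) := by
        rw [abs_mul, abs_of_pos ha0]
        exact mul_le_mul_of_nonneg_left ((abs_sub _ _).trans (add_le_add d1 d2)) ha0.le
      have d4 : |s ^ 2| ≤ (|Λ| + 1) ^ 2 := by
        rw [abs_of_nonneg (by positivity)]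
        exact pow_le_pow_left₀ hs0.le hsΛ 2
      exact (abs_add_le _ _).trans (add_le_add d4 d3)
    exact mul_le_mul c1 c2 (abs_nonneg _) (Real.rpow_nonneg hr.le _)

end Vale.Agent.P272.K.AMP.Pole
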