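import Vale.Agent.P272.K.AMP.Pole.Defs
import Vale.Agent.P272.K.C2.PosLin
import Vale.Agent.P272.K.INT.Dens
import Mathlib.MeasureTheory.Measure.Lebesgue.EqHaar

/-! Pole, block D: the mass of `B(q/ε²)`. -/

open scoped Manifold ContDiff ComplexOrder Topology Matrix
open Complex Set Filter MeasureTheory

noncomputable section

namespace Vale.Agent.P272.K.AMP.Pole

/-- change of variables by a complex matrix -/
lemma integral_comp_mulVec {n : ℕ} {f : Cm n → ℝ} (hf : Continuous f)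
    (T : Matrix (Fin n) (Fin n) ℂ) (hT : T.det ≠ 0) :
    ∫ z : Cm n, f (T.mulVec z) = (‖T.det‖ ^ 2)⁻¹ * ∫ z : Cm n, f z := by
  set L : Cm n →ₗ[ℝ] Cm n := (Matrix.toLin' T).restrictScalars ℝ with hL
  have hdet : LinearMap.det L = ‖T.det‖ ^ 2 := by
    rw [hL, LinearMap.det_restrictScalars, LinearMap.det_toLin', Algebra.norm_complex_apply,
      Complex.normSq_eq_norm_sq]
  have hdet0 : LinearMap.det L ≠ 0 := by
    rw [hdet]; exact pow_ne_zero 2 (norm_ne_zero_iff.2 hT)
  have h1 := Measure.map_linearMap_addHaar_eq_smul_addHaar (volume : Measure (Cm n)) hdet0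
  have hLc : Continuous L := L.continuous_of_finiteDimensional
  have h2 : ∫ z : Cm n, f (L z) = ∫ y, f y ∂(Measure.map L volume) :=
    (integral_map hLc.aemeasurable hf.aestronglyMeasurable).symm
  have h3 : ∀ z, L z = T.mulVec z := fun z => by simp [hL]
  simp only [h3] at h2
  rw [h2, h1, integral_smul_measure, hdet, ENNReal.toReal_ofReal (abs_nonneg _), smul_eq_mul,
    abs_of_nonneg (by positivity)]

/-- **Block D.** -/
theorem massEst (n : ℕ) : MassEst n := by
  intro B P ε hB hP hε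
  obtain ⟨A, hA⟩ := C2.exists_factor hP.posSemidef
  have hdetP : P.det = ((‖A.det‖ ^ 2 : ℝ) : ℂ) := by
    rw [hA, Matrix.det_mul, Matrix.det_conjTranspose]
    rw [← starRingEnd_apply, mul_comm, Complex.mul_conj, Complex.normSq_eq_norm_sq]
  have hA0 : A.det ≠ 0 := by
    intro h
    have := hP.det_pos
    rw [hdetP, h] at this
    simp at this
  set T : Matrix (Fin n) (Fin n) ℂ := ((ε⁻¹ : ℝ) : ℂ) • A.map (starRingEnd ℂ) with hTdef
  have hdetT : T.det = ((ε⁻¹ : ℝ) : ℂ) ^ n * (starRingEnd ℂ) A.det := by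
    rw [hTdef, Matrix.det_smul, Fintype.card_fin, RingHom.map_det]; rfl
  have hT0 : T.det ≠ 0 := by
    rw [hdetT]
    refine mul_ne_zero (pow_ne_zero _ (by exact_mod_cast (inv_pos.2 hε).ne')) ?_
    exact (map_ne_zero (starRingEnd ℂ)).2 hA0
  have hnT : ‖T.det‖ ^ 2 = (ε ^ (2 * n))⁻¹ * ‖A.det‖ ^ 2 := by
    rw [hdetT, norm_mul, norm_pow, Complex.norm_conj, Complex.norm_real, Real.norm_eq_abs,
      abs_of_pos (inv_pos.2 hε), mul_pow, ← pow_mul, inv_pow, mul_comm n 2]
  -- the quadratic form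
  have hq : ∀ z : Cm n, qf P z / ε ^ 2 = ∑ i, ‖(T.mulVec z) i‖ ^ 2 := by
    intro z
    have h1 : ∀ i, (T.mulVec z) i = ((ε⁻¹ : ℝ) : ℂ) * ∑ j, (starRingEnd ℂ) (A i j) * z j := by
      intro i
      simp only [Matrix.mulVec, dotProduct, hTdef, Matrix.smul_apply, Matrix.map_apply,
        smul_eq_mul, Finset.mul_sum, mul_assoc]
    have h2 : (∑ j, ∑ k, P j k * z j * (starRingEnd ℂ) (z k)) =
        ((∑ i, ‖∑ j, (starRingEnd ℂ) (A i j) * z j‖ ^ 2 : ℝ) : ℂ) := by
      push_cast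
      have h3 : ∀ i, ((‖∑ j, (starRingEnd ℂ) (A i j) * z j‖ : ℂ)) ^ 2 =
          ∑ j, ∑ k, (starRingEnd ℂ) (A i j) * z j * (A i k * (starRingEnd ℂ) (z k)) := by
        intro i
        have h4 : ((‖∑ j, (starRingEnd ℂ) (A i j) * z j‖ : ℂ)) ^ 2 =
            (∑ j, (starRingEnd ℂ) (A i j) * z j) *
              (starRingEnd ℂ) (∑ j, (starRingEnd ℂ) (A i j) * z j) := by
          rw [Complex.mul_conj, Complex.normSq_eq_norm_sq]; push_cast; rfl
        rw [h4, map_sum, Finset.sum_mul_sum]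
        refine Finset.sum_congr rfl fun j _ => Finset.sum_congr rfl fun k _ => ?_
        rw [map_mul, Complex.conj_conj]
      simp only [h3]
      symm
      rw [Finset.sum_comm]
      refine Finset.sum_congr rfl fun j _ => ?_
      rw [Finset.sum_comm]
      refine Finset.sum_congr rfl fun k _ => ?_
      rw [hA, Matrix.mul_apply, Finset.sum_mul, Finset.sum_mul]
      refine Finset.sum_congr rfl fun i _ => ?_
      rw [Matrix.conjTranspose_apply, ← starRingEnd_apply]
      ring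
    have h5 : qf P z = ∑ i, ‖∑ j, (starRingEnd ℂ) (A i j) * z j‖ ^ 2 := by
      unfold qf
      rw [h2, Complex.ofReal_re]
    rw [h5, Finset.sum_div]
    refine Finset.sum_congr rfl fun i _ => ?_
    rw [h1, norm_mul, Complex.norm_real, Real.norm_eq_abs, abs_of_pos (inv_pos.2 hε), mul_pow]
    field_simp
  have hF : Continuous fun z : Cm n => B (∑ i, ‖z i‖ ^ 2) := by
    refine hB.comp ?_
    fun_prop
  have h1 : ∫ z : Cm n, B (qf P z / ε ^ 2) * P.det.re =
      ‖A.det‖ ^ 2 * ∫ z : Cm n, B (∑ i, ‖(T.mulVec z) i‖ ^ 2) := by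
    rw [← integral_const_mul]
    refine integral_congr_ae (Eventually.of_forall fun z => ?_)
    show B (qf P z / ε ^ 2) * P.det.re = ‖A.det‖ ^ 2 * B (∑ i, ‖(T.mulVec z) i‖ ^ 2)
    rw [hq z, hdetP, Complex.ofReal_re, mul_comm]
  have h2 := integral_comp_mulVec hF T hT0
  rw [h1, h2, hnT]
  have h3 : ‖A.det‖ ^ 2 ≠ 0 := pow_ne_zero 2 (norm_ne_zero_iff.2 hA0)
  have h4 : ε ^ (2 * n) ≠ 0 := (pow_pos hε _).ne'
  field_simp

end Vale.Agent.P272.K.AMP.Pole
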