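import Vale.Agent.P272.K.AMP.Pole.Defs

/-!
# Step 1 (the pole function), blocks B2 and B3: the pointwise barrier inequalities
-/

open scoped Topology ContDiff
open Set Filter

set_option linter.all false

noncomputable section

namespace Vale.Agent.P272.K.AMP.Pole

/-! ## The second barrier -/

lemma hasDerivAt_He (n : ℕ) {ε t : ℝ} (h : 0 < t + ε ^ 2) :
    HasDerivAt (He n ε) (-((n : ℝ) - 5 / 4) * (t + ε ^ 2) ^ (-((n : ℝ) - 5 / 4) - 1)) t := by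
  have h1 : HasDerivAt (fun x : ℝ => x + ε ^ 2) 1 t := by
    simpa using (hasDerivAt_id t).add_const (ε ^ 2)
  have h2 : HasDerivAt (He n ε)
      (1 * (-((n : ℝ) - 5 / 4)) * (t + ε ^ 2) ^ (-((n : ℝ) - 5 / 4) - 1)) t :=
    h1.rpow_const (p := -((n : ℝ) - 5 / 4)) (Or.inl h.ne')
  rwa [one_mul] at h2

lemma eventually_pos {ε t : ℝ} (h : 0 < t + ε ^ 2) : ∀ᶠ x in 𝓝 t, 0 < x + ε ^ 2 := by
  have hc : Continuous fun x : ℝ => x + ε ^ 2 := by fun_prop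
  exact (hc.isOpen_preimage (Ioi 0) isOpen_Ioi).mem_nhds h

lemma deriv_He (n : ℕ) {ε t : ℝ} (h : 0 < t + ε ^ 2) :
    deriv (He n ε) t = -((n : ℝ) - 5 / 4) * (t + ε ^ 2) ^ (-((n : ℝ) - 5 / 4) - 1) :=
  (hasDerivAt_He n h).deriv

lemma deriv2_He (n : ℕ) {ε t : ℝ} (h : 0 < t + ε ^ 2) :
    deriv (deriv (He n ε)) t = ((n : ℝ) - 5 / 4) * ((n : ℝ) - 5 / 4 + 1) *
      (t + ε ^ 2) ^ (-((n : ℝ) - 5 / 4) - 2) := by
  have h0 : deriv (He n ε) =ᶠ[𝓝 t]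
      fun x => -((n : ℝ) - 5 / 4) * (x + ε ^ 2) ^ (-((n : ℝ) - 5 / 4) - 1) := by
    filter_upwards [eventually_pos h] with x hx
    exact deriv_He n hx
  rw [h0.deriv_eq]
  have h1 : HasDerivAt (fun x : ℝ => x + ε ^ 2) 1 t := by
    simpa using (hasDerivAt_id t).add_const (ε ^ 2)
  have h2 := (h1.rpow_const (p := -((n : ℝ) - 5 / 4) - 1) (Or.inl h.ne')).const_mul
    (-((n : ℝ) - 5 / 4))
  rw [h2.deriv]
  have e : -((n : ℝ) - 5 / 4) - 1 - 1 = -((n : ℝ) - 5 / 4) - 2 := by ring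
  rw [e]; ring

/-- the value of the operator on the second barrier -/
lemma opE_He (n : ℕ) {ε t : ℝ} (h : 0 < t + ε ^ 2) (L N : ℝ) :
    opE (He n ε) t L N = (t + ε ^ 2) ^ (-((n : ℝ) - 5 / 4) - 2) *
      ((t + ε ^ 2) ^ 2 + ((n : ℝ) - 5 / 4) * ((t + ε ^ 2) * L - ((n : ℝ) - 5 / 4 + 1) * N)) := by
  unfold opE
  rw [deriv_He n h, deriv2_He n h]
  have e1 : (t + ε ^ 2) ^ (-((n : ℝ) - 5 / 4) - 1) =
      (t + ε ^ 2) ^ (-((n : ℝ) - 5 / 4) - 2) * (t + ε ^ 2) := by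
    rw [← Real.rpow_add_one h.ne']; congr 1; ring
  have e2 : He n ε t = (t + ε ^ 2) ^ (-((n : ℝ) - 5 / 4) - 2) * (t + ε ^ 2) ^ 2 := by
    unfold He
    rw [← Real.rpow_natCast (t + ε ^ 2) 2, ← Real.rpow_add h]; congr 1; push_cast; ring
  rw [e1, e2]; ring

/-! ## The first barrier -/

lemma deriv_Fe (n : ℕ) {S : ℝ → ℝ} (hS : ContDiff ℝ ∞ S) (ε t : ℝ) :
    deriv (Fe n S ε) t = (ε ^ (2 * (n - 1)))⁻¹ * (deriv S (t / ε ^ 2) / ε ^ 2) := by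
  have h1 : HasDerivAt (fun x : ℝ => x / ε ^ 2) (1 / ε ^ 2) t := (hasDerivAt_id t).div_const _
  have h2 : HasDerivAt S (deriv S (t / ε ^ 2)) (t / ε ^ 2) :=
    ((hS.differentiable (by simp)) _).hasDerivAt
  have h3 := (h2.comp t h1).const_mul ((ε ^ (2 * (n - 1)))⁻¹)
  have h4 : HasDerivAt (Fe n S ε) ((ε ^ (2 * (n - 1)))⁻¹ * (deriv S (t / ε ^ 2) * (1 / ε ^ 2))) t :=
    h3
  rw [h4.deriv]; ring

lemma deriv2_Fe (n : ℕ) {S : ℝ → ℝ} (hS : ContDiff ℝ ∞ S) (ε t : ℝ) :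
    deriv (deriv (Fe n S ε)) t =
      (ε ^ (2 * (n - 1)))⁻¹ * (deriv (deriv S) (t / ε ^ 2) / ε ^ 2 / ε ^ 2) := by
  have h0 : deriv (Fe n S ε) =
      fun x => (ε ^ (2 * (n - 1)))⁻¹ * (deriv S (x / ε ^ 2) / ε ^ 2) := by
    funext x; exact deriv_Fe n hS ε x
  have hS' : ContDiff ℝ ∞ (deriv S) := (contDiff_infty_iff_deriv.1 hS).2
  have h1 : HasDerivAt (fun x : ℝ => x / ε ^ 2) (1 / ε ^ 2) t := (hasDerivAt_id t).div_const _
  have h2 : HasDerivAt (deriv S) (deriv (deriv S) (t / ε ^ 2)) (t / ε ^ 2) :=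
    ((hS'.differentiable (by simp)) _).hasDerivAt
  have h3 := ((h2.comp t h1).div_const (ε ^ 2)).const_mul ((ε ^ (2 * (n - 1)))⁻¹)
  have h4 : HasDerivAt (fun x => (ε ^ (2 * (n - 1)))⁻¹ * (deriv S (x / ε ^ 2) / ε ^ 2))
    ((ε ^ (2 * (n - 1)))⁻¹ * (deriv (deriv S) (t / ε ^ 2) * (1 / ε ^ 2) / ε ^ 2)) t := h3
  rw [h0, h4.deriv]; ring

section

variable {n : ℕ} {S B : ℝ → ℝ} {C : ℝ}

lemma pow_split (hn : 2 ≤ n) (ε : ℝ) : ε ^ (2 * n) = ε ^ (2 * (n - 1)) * ε ^ 2 := by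
  rw [← pow_add]; congr 1; omega

lemma S_pos (hP : Profile n S B C) (y : ℝ) : 0 < S y := by
  rcases le_total 1 y with h | h
  · rw [hP.S_far y h]; positivity
  · exact lt_of_lt_of_le one_pos (hP.S_ge y h)

/-- error of the first barrier -/
lemma opE_Fe_sub (hn : 2 ≤ n) (hP : Profile n S B C) {A ε Q L N : ℝ} (hA : 0 ≤ A) (hε : 0 < ε)
    (hQ : 0 ≤ Q) (hL : |L - n| ≤ A * √Q) (hN : |N - Q| ≤ A * (Q * √Q)) :
    |opE (Fe n S ε) Q L N - (ε ^ (2 * n))⁻¹ * B (Q / ε ^ 2)| ≤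
      (ε ^ (2 * (n - 1)))⁻¹ * S (Q / ε ^ 2) +
        A * √Q * ((ε ^ (2 * n))⁻¹ * ((n + 1) * |deriv S (Q / ε ^ 2)| + B (Q / ε ^ 2))) := by
  have hε2 : 0 < ε ^ 2 := by positivity
  set y := Q / ε ^ 2 with hy
  have hy0 : 0 ≤ y := by positivity
  have hQy : Q = y * ε ^ 2 := by rw [hy]; field_simp
  have hode := hP.ode y
  have hid : opE (Fe n S ε) Q L N - (ε ^ (2 * n))⁻¹ * B y =
      (ε ^ (2 * (n - 1)))⁻¹ * S y -
        (ε ^ (2 * n))⁻¹ * (deriv S y * (L - n) + deriv (deriv S) y * ((N - Q) / ε ^ 2)) := by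
    unfold opE
    rw [deriv_Fe n hP.smS, deriv2_Fe n hP.smS, ← hy, pow_split hn]
    have hB : B y = -(n * deriv S y + y * deriv (deriv S) y) := by linarith
    rw [hB, Fe, ← hy]
    have h1 : (ε ^ (2 * (n - 1)))⁻¹ ≠ 0 := by positivity
    rw [mul_inv]
    have h2 : y = Q / ε ^ 2 := hy
    rw [h2]
    field_simp
    ring
  rw [hid]
  have h2 : |y * deriv (deriv S) y| ≤ B y + n * |deriv S y| := by
    have : y * deriv (deriv S) y = -B y - n * deriv S y := by linarith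
    rw [this]
    calc |-B y - n * deriv S y| ≤ |-B y| + |n * deriv S y| := abs_sub _ _
      _ = B y + n * |deriv S y| := by
          rw [abs_neg, abs_of_nonneg (hP.B_nonneg y), abs_mul, abs_of_nonneg (Nat.cast_nonneg n)]
  have h3 : |deriv S y * (L - n)| ≤ |deriv S y| * (A * √Q) := by
    rw [abs_mul]; gcongr
  have h4 : |deriv (deriv S) y * ((N - Q) / ε ^ 2)| ≤ (B y + n * |deriv S y|) * (A * √Q) := by
    rw [abs_mul, abs_div, abs_of_pos hε2]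
    calc |deriv (deriv S) y| * (|N - Q| / ε ^ 2) ≤
          |deriv (deriv S) y| * (A * (Q * √Q) / ε ^ 2) := by gcongr
      _ = |y * deriv (deriv S) y| * (A * √Q) := by
          rw [abs_mul, abs_of_nonneg hy0, hy]; ring
      _ ≤ (B y + n * |deriv S y|) * (A * √Q) := by gcongr
  have hSy := (S_pos hP y).le
  calc |(ε ^ (2 * (n - 1)))⁻¹ * S y -
        (ε ^ (2 * n))⁻¹ * (deriv S y * (L - n) + deriv (deriv S) y * ((N - Q) / ε ^ 2))|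
      ≤ |(ε ^ (2 * (n - 1)))⁻¹ * S y| +
        |(ε ^ (2 * n))⁻¹ * (deriv S y * (L - n) + deriv (deriv S) y * ((N - Q) / ε ^ 2))| :=
        abs_sub _ _
    _ = (ε ^ (2 * (n - 1)))⁻¹ * S y +
        (ε ^ (2 * n))⁻¹ * |deriv S y * (L - n) + deriv (deriv S) y * ((N - Q) / ε ^ 2)| := by
        rw [abs_of_nonneg (by positivity), abs_mul, abs_of_nonneg (a := (ε ^ (2 * n))⁻¹)
          (by positivity)]
    _ ≤ (ε ^ (2 * (n - 1)))⁻¹ * S y +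
        (ε ^ (2 * n))⁻¹ * (|deriv S y| * (A * √Q) + (B y + n * |deriv S y|) * (A * √Q)) := by
        gcongr
        exact (abs_add_le _ _).trans (add_le_add h3 h4)
    _ = _ := by ring

lemma inv_pow_le_of_le {x y c : ℝ} (hx : 0 < x) (hy : 0 < y) (hc : 0 < c) (h : y ≤ c * x) (k : ℕ) :
    (x ^ k)⁻¹ ≤ c ^ k * (y ^ k)⁻¹ := by
  rw [← div_eq_mul_inv, le_div_iff₀ (by positivity), inv_mul_le_iff₀ (by positivity), ← mul_pow,
    mul_comm x c]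
  exact pow_le_pow_left₀ hy.le h k

lemma bound_S (hP : Profile n S B C) {ε Q : ℝ} (hε : 0 < ε) (hQ : 0 ≤ Q) :
    (ε ^ (2 * (n - 1)))⁻¹ * S (Q / ε ^ 2) ≤ C * 2 ^ (n - 1) * ((Q + ε ^ 2) ^ (n - 1))⁻¹ := by
  have hε2 : 0 < ε ^ 2 := by positivity
  have hC := hP.one_le
  rcases le_total 1 (Q / ε ^ 2) with h | h
  · have hQ1 : ε ^ 2 ≤ Q := by rwa [one_le_div hε2] at h
    have hQ0 : 0 < Q := lt_of_lt_of_le hε2 hQ1
    rw [hP.S_far _ h, div_pow, inv_div, pow_mul]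
    have e : ((ε ^ 2) ^ (n - 1))⁻¹ * ((ε ^ 2) ^ (n - 1) / Q ^ (n - 1)) = (Q ^ (n - 1))⁻¹ := by
      field_simp
    rw [e]
    have := inv_pow_le_of_le hQ0 (by positivity : 0 < Q + ε ^ 2) two_pos (by linarith) (n - 1)
    calc (Q ^ (n - 1))⁻¹ ≤ 2 ^ (n - 1) * ((Q + ε ^ 2) ^ (n - 1))⁻¹ := this
      _ ≤ C * (2 ^ (n - 1) * ((Q + ε ^ 2) ^ (n - 1))⁻¹) := by
          apply le_mul_of_one_le_left (by positivity) hC
      _ = _ := by ring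
  · have hQ1 : Q ≤ ε ^ 2 := by rwa [div_le_one hε2] at h
    have := inv_pow_le_of_le hε2 (by positivity : 0 < Q + ε ^ 2) two_pos (by linarith) (n - 1)
    rw [pow_mul]
    calc ((ε ^ 2) ^ (n - 1))⁻¹ * S (Q / ε ^ 2) ≤ (2 ^ (n - 1) * ((Q + ε ^ 2) ^ (n - 1))⁻¹) * C := by
          apply mul_le_mul this (hP.S_le _) (S_pos hP _).le (by positivity)
      _ = _ := by ring

lemma bound_dS (hP : Profile n S B C) {ε Q : ℝ} (hε : 0 < ε) (hQ : 0 ≤ Q) :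
    (ε ^ (2 * n))⁻¹ * |deriv S (Q / ε ^ 2)| ≤ C * 5 ^ n * ((Q + ε ^ 2) ^ n)⁻¹ := by
  have hε2 : 0 < ε ^ 2 := by positivity
  have hC := hP.one_le
  rcases le_total (1 / 4) (Q / ε ^ 2) with h | h
  · have hQ1 : ε ^ 2 ≤ 4 * Q := by
      rw [div_le_div_iff₀ (by norm_num) hε2] at h; linarith
    have hQ0 : 0 < Q := by linarith
    have := inv_pow_le_of_le hQ0 (by positivity : 0 < Q + ε ^ 2) (by norm_num : (0:ℝ) < 5)
      (by linarith) n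
    rw [pow_mul]
    calc ((ε ^ 2) ^ n)⁻¹ * |deriv S (Q / ε ^ 2)| ≤ ((ε ^ 2) ^ n)⁻¹ * (C * ((Q / ε ^ 2) ^ n)⁻¹) := by
          gcongr; exact hP.dS_le _ h
      _ = C * (Q ^ n)⁻¹ := by rw [div_pow, inv_div]; field_simp
      _ ≤ C * (5 ^ n * ((Q + ε ^ 2) ^ n)⁻¹) := by gcongr
      _ = _ := by ring
  · rw [hP.dS_zero _ h, abs_zero, mul_zero]; positivity

lemma bound_B (hP : Profile n S B C) {ε Q : ℝ} (hε : 0 < ε) (hQ : 0 ≤ Q) :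
    (ε ^ (2 * n))⁻¹ * B (Q / ε ^ 2) ≤ C * 2 ^ n * ((Q + ε ^ 2) ^ n)⁻¹ := by
  have hε2 : 0 < ε ^ 2 := by positivity
  have hC := hP.one_le
  rcases le_total (3 / 4) (Q / ε ^ 2) with h | h
  · rw [hP.B_supp _ (Or.inr h), mul_zero]; positivity
  · have hQ1 : Q ≤ ε ^ 2 := by
      rw [div_le_div_iff₀ hε2 (by norm_num)] at h; linarith
    have := inv_pow_le_of_le hε2 (by positivity : 0 < Q + ε ^ 2) two_pos (by linarith) n
    rw [pow_mul]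
    calc ((ε ^ 2) ^ n)⁻¹ * B (Q / ε ^ 2) ≤ (2 ^ n * ((Q + ε ^ 2) ^ n)⁻¹) * C := by
          apply mul_le_mul this (hP.B_le _) (hP.B_nonneg _) (by positivity)
      _ = _ := by ring

/-- lower bound for the second barrier: with `s = Q + ε²`, `u = s^{1/4}` small. -/
lemma low_He (hn : 2 ≤ n) {A a ε Q L N s u ρ : ℝ} (hA : 0 ≤ A) (ha : a = (n : ℝ) - 5 / 4)
    (hs : s = Q + ε ^ 2) (hs0 : 0 < s) (hQ : 0 ≤ Q) (hu : u = s ^ (1 / 4 : ℝ)) (hu0 : 0 < u)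
    (hsQ : √Q ≤ u ^ 2) (h8 : A * (a + 2) * u ^ 2 ≤ 1 / 8)
    (hL : |L - n| ≤ A * √Q) (hN : |N - Q| ≤ A * (Q * √Q)) :
    a / 8 * u * (s ^ n)⁻¹ ≤ opE (He n ε) Q L N := by
  have hn' : (2 : ℝ) ≤ n := by exact_mod_cast hn
  have ha0 : 0 < a := by rw [ha]; linarith
  have hQs : Q ≤ s := by rw [hs]; nlinarith [sq_nonneg ε]
  have hpow : s ^ (-a - 2) = (s ^ n)⁻¹ * (s⁻¹ * u) := by
    have e1 : (s ^ n)⁻¹ = s ^ (-(n : ℝ)) := by rw [Real.rpow_neg hs0.le, Real.rpow_natCast]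
    have e2 : s⁻¹ = s ^ (-1 : ℝ) := by rw [Real.rpow_neg_one]
    rw [e1, e2, hu, ← Real.rpow_add hs0, ← Real.rpow_add hs0]
    congr 1; rw [ha]; ring
  rw [opE_He n (by rw [← hs]; exact hs0), ← hs, ← ha, hpow]
  have hL' : n - A * u ^ 2 ≤ L := by
    have := (abs_le.1 hL).1
    have h2 : A * √Q ≤ A * u ^ 2 := by gcongr
    linarith
  have hN' : N ≤ s + A * (s * u ^ 2) := by
    have := (abs_le.1 hN).2
    have h2 : A * (Q * √Q) ≤ A * (s * u ^ 2) := by gcongr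
    linarith
  have h5 : s * (1 / 8) ≤ s * L - (a + 1) * N := by
    have h6 : s * (n - A * u ^ 2) ≤ s * L := by gcongr
    have h7 : (a + 1) * N ≤ (a + 1) * (s + A * (s * u ^ 2)) := by gcongr
    have h9 : s * (n - A * u ^ 2) - (a + 1) * (s + A * (s * u ^ 2)) =
        s * (1 / 4 - A * (a + 2) * u ^ 2) := by rw [ha]; ring
    have h10 : s * (1 / 8) ≤ s * (1 / 4 - A * (a + 2) * u ^ 2) := by
      apply mul_le_mul_of_nonneg_left _ hs0.le; linarith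
    linarith
  have h11 : a * (s * (1 / 8)) ≤ s ^ 2 + a * (s * L - (a + 1) * N) := by
    have h12 : a * (s * (1 / 8)) ≤ a * (s * L - (a + 1) * N) := by gcongr
    have h13 : 0 ≤ s ^ 2 := by positivity
    linarith
  calc a / 8 * u * (s ^ n)⁻¹ = (s ^ n)⁻¹ * (s⁻¹ * u) * (a * (s * (1 / 8))) := by
        field_simp
    _ ≤ (s ^ n)⁻¹ * (s⁻¹ * u) * (s ^ 2 + a * (s * L - (a + 1) * N)) := by
        apply mul_le_mul_of_nonneg_left h11; positivity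

/-- upper bound for the error of the first barrier -/
lemma up_Fe (hn : 2 ≤ n) (hP : Profile n S B C) {A ε Q L N s u : ℝ} (hA : 0 ≤ A) (hε : 0 < ε)
    (hQ : 0 ≤ Q) (hs : s = Q + ε ^ 2) (hs0 : 0 < s) (hu0 : 0 < u) (hsu : s ≤ u ^ 2)
    (hsQ : √Q ≤ u ^ 2) (hL : |L - n| ≤ A * √Q) (hN : |N - Q| ≤ A * (Q * √Q)) :
    |opE (Fe n S ε) Q L N - (ε ^ (2 * n))⁻¹ * B (Q / ε ^ 2)| ≤
      C * (2 ^ (n - 1) + A * ((n + 1) * 5 ^ n + 2 ^ n)) * u * (u * (s ^ n)⁻¹) := by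
  have hC := hP.one_le
  refine (opE_Fe_sub hn hP hA hε hQ hL hN).trans ?_
  have b1 := bound_S (n := n) hP hε hQ
  have b2 := bound_dS (n := n) hP hε hQ
  have b3 := bound_B (n := n) hP hε hQ
  rw [← hs] at b1 b2 b3
  have hsn : (s ^ (n - 1))⁻¹ = s * (s ^ n)⁻¹ := by
    have : s ^ n = s ^ (n - 1) * s := by rw [← pow_succ]; congr 1; omega
    rw [this]; field_simp
  have hX : 0 < (s ^ n)⁻¹ := by positivity
  set X := (s ^ n)⁻¹ with hXd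
  have b1' : (ε ^ (2 * (n - 1)))⁻¹ * S (Q / ε ^ 2) ≤ C * 2 ^ (n - 1) * (u ^ 2 * X) := by
    refine b1.trans ?_
    rw [hsn]
    gcongr
  have hB0 : 0 ≤ (ε ^ (2 * n))⁻¹ * B (Q / ε ^ 2) :=
    mul_nonneg (by positivity) (hP.B_nonneg _)
  have hD0 : 0 ≤ (ε ^ (2 * n))⁻¹ * |deriv S (Q / ε ^ 2)| := by positivity
  have h1 : (n + 1) * ((ε ^ (2 * n))⁻¹ * |deriv S (Q / ε ^ 2)|) +
      (ε ^ (2 * n))⁻¹ * B (Q / ε ^ 2) ≤ (n + 1) * (C * 5 ^ n * X) + C * 2 ^ n * X := by gcongr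
  have h2 : A * √Q * ((n + 1) * ((ε ^ (2 * n))⁻¹ * |deriv S (Q / ε ^ 2)|) +
      (ε ^ (2 * n))⁻¹ * B (Q / ε ^ 2)) ≤
      A * u ^ 2 * ((n + 1) * (C * 5 ^ n * X) + C * 2 ^ n * X) := by
    apply mul_le_mul (by gcongr) h1 (by positivity) (by positivity)
  calc (ε ^ (2 * (n - 1)))⁻¹ * S (Q / ε ^ 2) +
        A * √Q * ((ε ^ (2 * n))⁻¹ * ((n + 1) * |deriv S (Q / ε ^ 2)| + B (Q / ε ^ 2)))
      = (ε ^ (2 * (n - 1)))⁻¹ * S (Q / ε ^ 2) +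
        A * √Q * ((n + 1) * ((ε ^ (2 * n))⁻¹ * |deriv S (Q / ε ^ 2)|) +
          (ε ^ (2 * n))⁻¹ * B (Q / ε ^ 2)) := by ring
    _ ≤ C * 2 ^ (n - 1) * (u ^ 2 * X) +
        A * u ^ 2 * ((n + 1) * (C * 5 ^ n * X) + C * 2 ^ n * X) := add_le_add b1' h2
    _ = _ := by ring

/-- block B2 -/
theorem nearEst (hn : 2 ≤ n) (hP : Profile n S B C) : NearEst n S B := by
  intro A hA
  have hC := hP.one_le
  have hn' : (2 : ℝ) ≤ n := by exact_mod_cast hn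
  obtain ⟨a, ha⟩ : ∃ a : ℝ, a = (n : ℝ) - 5 / 4 := ⟨_, rfl⟩
  have ha0 : 0 < a := by rw [ha]; linarith
  obtain ⟨C', hC'⟩ : ∃ C' : ℝ, C' = C * (2 ^ (n - 1) + A * ((n + 1) * 5 ^ n + 2 ^ n)) := ⟨_, rfl⟩
  have hC'0 : 0 ≤ C' := by rw [hC']; positivity
  have hx1 : 0 ≤ 8 * A * (a + 2) := by positivity
  have hx2 : 0 ≤ 8 * C' / a := by positivity
  have hden : 1 ≤ 1 + 8 * A * (a + 2) + 8 * C' / a := by linarith
  obtain ⟨ρ, hρ⟩ : ∃ ρ : ℝ, ρ = (1 + 8 * A * (a + 2) + 8 * C' / a)⁻¹ := ⟨_, rfl⟩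
  have hρ0 : 0 < ρ := by rw [hρ]; exact inv_pos.2 (by linarith)
  have hρ1 : ρ ≤ 1 := by rw [hρ]; exact inv_le_one_of_one_le₀ hden
  have hmul : ρ * (1 + 8 * A * (a + 2) + 8 * C' / a) = 1 := by
    rw [hρ]; exact inv_mul_cancel₀ (by linarith)
  have hy1 := mul_nonneg hρ0.le hx1
  have hy2 := mul_nonneg hρ0.le hx2
  have hsum : ρ + ρ * (8 * A * (a + 2)) + ρ * (8 * C' / a) = 1 := by rw [← hmul]; ring
  have hρA : A * (a + 2) * ρ ≤ 1 / 8 := by linarith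
  have hρC : C' * ρ ≤ a / 8 := by
    have h2 : ρ * (8 * C' / a) ≤ 1 := by linarith
    have h3 : ρ * (8 * C') ≤ a := by
      have : ρ * (8 * C' / a) = ρ * (8 * C') / a := by ring
      rw [this, div_le_one ha0] at h2; exact h2
    linarith
  refine ⟨ρ ^ 4, by positivity, pow_le_one₀ hρ0.le hρ1, ?_⟩
  intro ε Q L N hε hQ hQr hL hN
  obtain ⟨s, hs⟩ : ∃ s : ℝ, s = Q + ε ^ 2 := ⟨_, rfl⟩
  have hs0 : 0 < s := by rw [hs]; positivity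
  obtain ⟨u, hu⟩ : ∃ u : ℝ, u = s ^ (1 / 4 : ℝ) := ⟨_, rfl⟩
  have hu0 : 0 < u := by rw [hu]; exact Real.rpow_pos_of_pos hs0 _
  have hu4 : u ^ 4 = s := by
    rw [hu, ← Real.rpow_natCast, ← Real.rpow_mul hs0.le]; norm_num
  have huρ : u ≤ ρ := by
    by_contra h
    have := pow_lt_pow_left₀ (not_le.1 h) hρ0.le (by norm_num : (4 : ℕ) ≠ 0)
    rw [hu4, hs] at this
    linarith
  have hu1 : u ≤ 1 := huρ.trans hρ1
  have hsq : √s = u ^ 2 := by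
    rw [← hu4, show u ^ 4 = (u ^ 2) ^ 2 by ring, Real.sqrt_sq (by positivity)]
  have hsQ : √Q ≤ u ^ 2 := by
    rw [← hsq]; exact Real.sqrt_le_sqrt (by rw [hs]; nlinarith [sq_nonneg ε])
  have hu2ρ : u ^ 2 ≤ ρ := by
    calc u ^ 2 = u * u := by ring
      _ ≤ 1 * ρ := by gcongr
      _ = ρ := one_mul _
  have h8 : A * (a + 2) * u ^ 2 ≤ 1 / 8 :=
    le_trans (mul_le_mul_of_nonneg_left hu2ρ (by positivity)) hρA
  have hsu : s ≤ u ^ 2 := by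
    rw [← hu4]
    calc u ^ 4 = u ^ 2 * u ^ 2 := by ring
      _ ≤ 1 * u ^ 2 := by
          gcongr
          exact pow_le_one₀ hu0.le hu1
      _ = u ^ 2 := one_mul _
  have hlow := low_He (ρ := ρ) hn hA ha hs hs0 hQ hu hu0 hsQ h8 hL hN
  have hup := up_Fe hn hP hA hε hQ hs hs0 hu0 hsu hsQ hL hN
  refine hup.trans (le_trans ?_ hlow)
  rw [← hC']
  calc C' * u * (u * (s ^ n)⁻¹) ≤ a / 8 * (u * (s ^ n)⁻¹) := by
        apply mul_le_mul_of_nonneg_right _ (by positivity)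
        exact (mul_le_mul_of_nonneg_left huρ hC'0).trans hρC
    _ = a / 8 * u * (s ^ n)⁻¹ := by ring

end

end Vale.Agent.P272.K.AMP.Pole
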