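import Vale.Agent.P272.K.AMP.Pole.Defs
import Mathlib.Analysis.Calculus.BumpFunction.Normed
import Mathlib.Analysis.Calculus.ContDiff.Deriv
import Mathlib.MeasureTheory.Integral.IntervalIntegral.FundThmCalculus
import Mathlib.Analysis.Calculus.BumpFunction.InnerProduct

/-! Block B1: the radial profile exists. -/

open scoped ContDiff Topology
open Set Filter MeasureTheory

set_option linter.all false

noncomputable section

namespace Vale.Agent.P272.K.AMP.Pole

/-- a bump at `1/2` supported in `[1/4, 3/4]` -/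
def bu : ContDiffBump (1 / 2 : ℝ) := ⟨1 / 8, 1 / 4, by norm_num, by norm_num⟩

lemma bu_zero {t : ℝ} (h : t ≤ 1 / 4 ∨ 3 / 4 ≤ t) : bu t = 0 := by
  apply bu.zero_of_le_dist
  show (1 / 4 : ℝ) ≤ dist t (1 / 2)
  rw [Real.dist_eq]
  rcases h with h | h
  · rw [abs_of_nonpos (by linarith)]; linarith
  · rw [abs_of_nonneg (by linarith)]; linarith

lemma bu_half : bu (1 / 2) = 1 := by
  apply bu.one_of_mem_closedBall
  simp [bu.rIn_pos.le]

lemma bu_smooth : ContDiff ℝ ∞ (bu : ℝ → ℝ) := bu.contDiff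

/-- the integral of the weighted bump -/
def I0 (m : ℕ) : ℝ := ∫ t in (0 : ℝ)..1, bu t * t ^ m

lemma bu_cont (m : ℕ) : Continuous fun t : ℝ => bu t * t ^ m :=
  bu_smooth.continuous.mul (continuous_pow m)

lemma I0_pos (m : ℕ) : 0 < I0 m := by
  refine intervalIntegral.integral_pos one_pos (bu_cont m).continuousOn
    (fun x hx => mul_nonneg bu.nonneg (pow_nonneg hx.1.le m)) ⟨1 / 2, ⟨by norm_num, by norm_num⟩, ?_⟩
  rw [bu_half]; positivity

/-- the right hand side of the profile equation -/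
def Bp (m : ℕ) (y : ℝ) : ℝ := (m / I0 m) * bu y

/-- `M' = B y^m` -/
def Mp (m : ℕ) (y : ℝ) : ℝ := ∫ t in (0 : ℝ)..y, Bp m t * t ^ m

lemma Bp_smooth (m : ℕ) : ContDiff ℝ ∞ (Bp m) := contDiff_const.mul bu_smooth

lemma Bp_zero {m : ℕ} {t : ℝ} (h : t ≤ 1 / 4 ∨ 3 / 4 ≤ t) : Bp m t = 0 := by
  unfold Bp; rw [bu_zero h, mul_zero]

lemma Bp_nonneg (m : ℕ) (t : ℝ) : 0 ≤ Bp m t := by
  unfold Bp
  have := I0_pos m
  have := bu.nonneg (x := t)
  positivity

lemma Bp_cont (m : ℕ) : Continuous fun t : ℝ => Bp m t * t ^ m :=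
  (Bp_smooth m).continuous.mul (continuous_pow m)

lemma hasDerivAt_Mp (m : ℕ) (y : ℝ) : HasDerivAt (Mp m) (Bp m y * y ^ m) y :=
  intervalIntegral.integral_hasDerivAt_right ((Bp_cont m).intervalIntegrable _ _)
    ((Bp_cont m).stronglyMeasurableAtFilter _ _) (Bp_cont m).continuousAt

lemma Mp_smooth (m : ℕ) : ContDiff ℝ ∞ (Mp m) := by
  rw [contDiff_infty_iff_deriv]
  refine ⟨fun y => (hasDerivAt_Mp m y).differentiableAt, ?_⟩
  have : deriv (Mp m) = fun y => Bp m y * y ^ m := funext fun y => (hasDerivAt_Mp m y).deriv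
  rw [this]
  exact (Bp_smooth m).mul (contDiff_id.pow m)

lemma Mp_zero {m : ℕ} {y : ℝ} (h : y ≤ 1 / 4) : Mp m y = 0 := by
  unfold Mp
  rw [intervalIntegral.integral_congr (g := fun _ => 0)]
  · simp
  · intro t ht
    have : t ≤ 1 / 4 := by
      rcases le_total 0 y with h0 | h0
      · rw [uIcc_of_le h0] at ht; exact ht.2.trans h
      · rw [uIcc_of_ge h0] at ht; exact ht.2.trans (by norm_num)
    simp [Bp_zero (Or.inl this)]

lemma Mp_one (m : ℕ) : Mp m 1 = m := by
  unfold Mp Bp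
  have : ∀ t : ℝ, (m / I0 m) * bu t * t ^ m = (m / I0 m) * (bu t * t ^ m) := fun t => by ring
  simp only [this]
  rw [intervalIntegral.integral_const_mul]
  show (m / I0 m) * I0 m = m
  exact div_mul_cancel₀ _ (I0_pos m).ne'

lemma Mp_far {m : ℕ} {y : ℝ} (h : 3 / 4 ≤ y) : Mp m y = m := by
  have h1 : Mp m y - Mp m 1 = ∫ t in (1 : ℝ)..y, Bp m t * t ^ m :=
    intervalIntegral.integral_interval_sub_left ((Bp_cont m).intervalIntegrable _ _)
      ((Bp_cont m).intervalIntegrable _ _)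
  rw [intervalIntegral.integral_congr (g := fun _ => 0)] at h1
  · simp only [intervalIntegral.integral_zero] at h1
    rw [← Mp_one m]; linarith
  · intro t ht
    have : 3 / 4 ≤ t := by
      rcases le_total 1 y with h0 | h0
      · rw [uIcc_of_le h0] at ht; linarith [ht.1]
      · rw [uIcc_of_ge h0] at ht; exact h.trans ht.1
    simp [Bp_zero (Or.inr this)]

lemma Mp_mono (m : ℕ) : Monotone (Mp m) := by
  refine monotone_of_deriv_nonneg (fun y => (hasDerivAt_Mp m y).differentiableAt) fun y => ?_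
  rw [(hasDerivAt_Mp m y).deriv]
  rcases le_total y 0 with h | h
  · rw [Bp_zero (Or.inl (by linarith))]; simp
  · exact mul_nonneg (Bp_nonneg m y) (pow_nonneg h m)

lemma Mp_nonneg (m : ℕ) (y : ℝ) : 0 ≤ Mp m y := by
  have h1 := Mp_mono m (min_le_left y 0)
  rw [Mp_zero (y := min y 0) ((min_le_right y 0).trans (by norm_num))] at h1
  exact h1

lemma Mp_le (m : ℕ) (y : ℝ) : Mp m y ≤ m := by
  have h1 := Mp_mono m (le_max_left y 1)
  rwa [Mp_far (y := max y 1) (le_trans (by norm_num) (le_max_right y 1))] at h1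

/-- `σ = M y^{-(m+1)} = -S'` -/
def sp (m : ℕ) (y : ℝ) : ℝ := Mp m y * (y ^ (m + 1))⁻¹

lemma sp_zero {m : ℕ} {y : ℝ} (h : y ≤ 1 / 4) : sp m y = 0 := by
  unfold sp; rw [Mp_zero h, zero_mul]

lemma sp_ev_zero {m : ℕ} {y : ℝ} (h : y < 1 / 4) : sp m =ᶠ[𝓝 y] fun _ => 0 := by
  filter_upwards [gt_mem_nhds h] with t ht
  exact sp_zero (le_of_lt ht)

lemma hasDerivAt_sp {m : ℕ} {y : ℝ} (h : 0 < y) :
    HasDerivAt (sp m) (Bp m y * y ^ m * (y ^ (m + 1))⁻¹ +
      Mp m y * (-(((m + 1 : ℕ) : ℝ) * y ^ m) / (y ^ (m + 1)) ^ 2)) y := by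
  have h1 : HasDerivAt (fun y : ℝ => (y ^ (m + 1))⁻¹)
      (-(((m + 1 : ℕ) : ℝ) * y ^ m) / (y ^ (m + 1)) ^ 2) y := by
    have := (hasDerivAt_pow (m + 1) y).fun_inv (pow_pos h _).ne'
    simpa using this
  exact (hasDerivAt_Mp m y).mul h1

lemma sp_smooth (m : ℕ) : ContDiff ℝ ∞ (sp m) := by
  rw [contDiff_iff_contDiffAt]
  intro y
  rcases lt_or_ge y (1 / 4) with h | h
  · exact contDiffAt_const.congr_of_eventuallyEq (sp_ev_zero h)
  · have hy : 0 < y := by linarith
    exact (Mp_smooth m).contDiffAt.mul ((contDiff_id.pow (m + 1)).contDiffAt.inv (pow_pos hy _).ne')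

lemma sp_nonneg (m : ℕ) (y : ℝ) : 0 ≤ sp m y := by
  rcases le_total y (1 / 4) with h | h
  · rw [sp_zero h]
  · have hy : 0 < y := by linarith
    unfold sp
    exact mul_nonneg (Mp_nonneg m y) (by positivity)

/-- the profile -/
def Sp (m : ℕ) (y : ℝ) : ℝ := 1 - ∫ t in (1 : ℝ)..y, sp m t

lemma hasDerivAt_Sp (m : ℕ) (y : ℝ) : HasDerivAt (Sp m) (-sp m y) y :=
  (intervalIntegral.integral_hasDerivAt_right ((sp_smooth m).continuous.intervalIntegrable _ _)
    ((sp_smooth m).continuous.stronglyMeasurableAtFilter _ _)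
    (sp_smooth m).continuous.continuousAt).const_sub 1

lemma deriv_Sp (m : ℕ) : deriv (Sp m) = fun y => -sp m y := funext fun y => (hasDerivAt_Sp m y).deriv

lemma Sp_smooth (m : ℕ) : ContDiff ℝ ∞ (Sp m) := by
  rw [contDiff_infty_iff_deriv]
  refine ⟨fun y => (hasDerivAt_Sp m y).differentiableAt, ?_⟩
  rw [deriv_Sp]
  exact (sp_smooth m).neg

lemma Sp_anti (m : ℕ) : Antitone (Sp m) := by
  refine antitone_of_deriv_nonpos (fun y => (hasDerivAt_Sp m y).differentiableAt) fun y => ?_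
  rw [(hasDerivAt_Sp m y).deriv]
  have := sp_nonneg m y
  linarith

lemma Sp_one (m : ℕ) : Sp m 1 = 1 := by simp [Sp]

lemma Sp_neg {m : ℕ} {y : ℝ} (h : y ≤ 0) : Sp m y = Sp m 0 := by
  have h1 : (∫ t in (1 : ℝ)..y, sp m t) - ∫ t in (1 : ℝ)..0, sp m t = ∫ t in (0 : ℝ)..y, sp m t :=
    intervalIntegral.integral_interval_sub_left ((sp_smooth m).continuous.intervalIntegrable _ _)
      ((sp_smooth m).continuous.intervalIntegrable _ _)
  rw [intervalIntegral.integral_congr (a := (0 : ℝ)) (b := y) (g := fun _ => 0)] at h1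
  · simp only [intervalIntegral.integral_zero] at h1
    unfold Sp; linarith
  · intro t ht
    rw [uIcc_of_ge h] at ht
    exact sp_zero (ht.2.trans (by norm_num))

lemma Sp_le (m : ℕ) (y : ℝ) : Sp m y ≤ Sp m 0 := by
  rcases le_total y 0 with h | h
  · rw [Sp_neg h]
  · exact Sp_anti m h

lemma Sp_far {m : ℕ} {y : ℝ} (h : 1 ≤ y) : Sp m y = (y ^ m)⁻¹ := by
  have hd : ∀ t ∈ uIcc 1 y, HasDerivAt (fun t : ℝ => (t ^ m)⁻¹) (-sp m t) t := by
    intro t ht
    rw [uIcc_of_le h] at ht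
    have ht0 : 0 < t := by linarith [ht.1]
    have h1 := (hasDerivAt_pow m t).fun_inv (pow_pos ht0 _).ne'
    have h2 : -(↑m * t ^ (m - 1)) / (t ^ m) ^ 2 = -sp m t := by
      unfold sp
      rw [Mp_far (by linarith [ht.1])]
      rcases Nat.eq_zero_or_pos m with hm | hm
      · subst hm; simp
      · obtain ⟨k, rfl⟩ : ∃ k, m = k + 1 := ⟨m - 1, by omega⟩
        simp only [Nat.add_sub_cancel]
        have := ht0.ne'
        field_simp
        ring
    rwa [h2] at h1
  have h3 := intervalIntegral.integral_eq_sub_of_hasDerivAt hd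
    ((sp_smooth m).continuous.neg.intervalIntegrable _ _)
  rw [intervalIntegral.integral_neg] at h3
  unfold Sp
  simp only [one_pow, inv_one] at h3
  linarith

/-- **Block B1.** -/
theorem existsProfile {n : ℕ} (hn : 2 ≤ n) : ExistsProfile n := by
  obtain ⟨m, rfl⟩ : ∃ m, n = m + 1 := ⟨n - 1, by omega⟩
  have hm : 1 ≤ m := by omega
  have hsupp : HasCompactSupport (Bp m) := by
    unfold Bp
    exact bu.hasCompactSupport.mul_left
  obtain ⟨C1, hC1⟩ := ((Bp_smooth m).continuous_deriv (by norm_cast)).bounded_above_of_compact_support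
    hsupp.deriv
  have hI := I0_pos m
  have hC1' : 0 ≤ C1 := (norm_nonneg _).trans (hC1 0)
  have hS0 : 1 ≤ Sp m 0 := by
    have := Sp_anti m (zero_le_one (α := ℝ))
    rwa [Sp_one] at this
  have hc : 0 ≤ m / I0 m := by positivity
  refine ⟨Sp m, Bp m, 1 + m / I0 m + C1 + m + Sp m 0, ?_⟩
  refine
    { smS := Sp_smooth m
      smB := Bp_smooth m
      one_le := by
        have : (0 : ℝ) ≤ m := by positivity
        linarith
      B_nonneg := Bp_nonneg m
      B_le := fun y => ?_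
      dB_le := fun y => ?_
      B_supp := fun y hy => Bp_zero hy
      B_half := ?_
      S_far := fun y hy => ?_
      S_ge := fun y hy => ?_
      S_le := fun y => ?_
      ode := fun y => ?_
      dS_le := fun y hy => ?_
      dS_zero := fun y hy => ?_ }
  · have h1 : Bp m y ≤ m / I0 m := by
      unfold Bp
      exact mul_le_of_le_one_right hc bu.le_one
    have : (0 : ℝ) ≤ m := by positivity
    linarith
  · have h1 := hC1 y
    rw [Real.norm_eq_abs] at h1
    have : (0 : ℝ) ≤ m := by positivity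
    linarith
  · unfold Bp
    rw [bu_half]
    have : (0 : ℝ) < m := by exact_mod_cast hm
    positivity
  · simp only [Nat.add_sub_cancel]
    exact Sp_far hy
  · have := Sp_anti m hy
    rwa [Sp_one] at this
  · have h1 := Sp_le m y
    have : (0 : ℝ) ≤ m := by positivity
    linarith
  · rw [deriv_Sp]
    rcases lt_or_ge y (1 / 4) with h | h
    · have h1 : deriv (fun y => -sp m y) y = 0 := by
        have h2 : (fun y => -sp m y) =ᶠ[𝓝 y] fun _ => 0 := by
          filter_upwards [sp_ev_zero (m := m) h] with t ht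
          rw [ht, neg_zero]
        rw [h2.deriv_eq]; simp
      rw [h1]
      show ((m + 1 : ℕ) : ℝ) * -sp m y + y * 0 = -Bp m y
      rw [sp_zero h.le, Bp_zero (Or.inl h.le)]
      simp
    · have hy : 0 < y := by linarith
      have h1 : deriv (fun y => -sp m y) y = -(Bp m y * y ^ m * (y ^ (m + 1))⁻¹ +
          Mp m y * (-(((m + 1 : ℕ) : ℝ) * y ^ m) / (y ^ (m + 1)) ^ 2)) :=
        (hasDerivAt_sp (m := m) hy).neg.deriv
      rw [h1]
      unfold sp
      have hy0 := hy.ne'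
      have e1 : y * (y ^ m * (y ^ (m + 1))⁻¹) = 1 := by
        rw [← mul_assoc, mul_comm y, ← pow_succ]
        exact mul_inv_cancel₀ (pow_ne_zero _ hy0)
      have e2 : y * (((m + 1 : ℕ) : ℝ) * y ^ m / (y ^ (m + 1)) ^ 2) =
          ((m + 1 : ℕ) : ℝ) * (y ^ (m + 1))⁻¹ := by
        rw [pow_two (y ^ (m + 1)), pow_succ]
        field_simp
      calc ((m + 1 : ℕ) : ℝ) * -(Mp m y * (y ^ (m + 1))⁻¹) +
            y * -(Bp m y * y ^ m * (y ^ (m + 1))⁻¹ +
              Mp m y * (-(((m + 1 : ℕ) : ℝ) * y ^ m) / (y ^ (m + 1)) ^ 2))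
          = -(((m + 1 : ℕ) : ℝ) * (y ^ (m + 1))⁻¹) * Mp m y
            - Bp m y * (y * (y ^ m * (y ^ (m + 1))⁻¹))
            + Mp m y * (y * (((m + 1 : ℕ) : ℝ) * y ^ m / (y ^ (m + 1)) ^ 2)) := by ring
        _ = -Bp m y := by rw [e1, e2]; ring
  · rw [deriv_Sp]
    have hy0 : 0 < y := by linarith
    have h1 : |(-sp m y)| = sp m y := by rw [abs_neg, abs_of_nonneg (sp_nonneg m y)]
    show |(-sp m y)| ≤ _
    rw [h1]
    unfold sp
    refine mul_le_mul_of_nonneg_right ?_ (by positivity)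
    have := Mp_le m y
    linarith
  · rw [deriv_Sp]
    show -sp m y = 0
    rw [sp_zero hy, neg_zero]

end Vale.Agent.P272.K.AMP.Pole
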