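import Vale.Agent.P272.K.AMP.Pole.Main
import Vale.Agent.P272.K.AMP.Pole.Profile
import Vale.Agent.P272.K.AMP.Pole.Near
import Vale.Agent.P272.K.AMP.Pole.Far
import Vale.Agent.P272.K.AMP.Pole.Mass

/-!
# Step 1: the pole function
-/

open scoped Manifold ContDiff ComplexOrder Topology ComplexConjugate

noncomputable section

namespace Vale.Agent.P272.K.AMP.Pole

/-- **Step 1.** For every `n ≥ 2` there is `K > 0` such that on every compact complex manifold of
dimension `n` with a Kähler metric `g`, `Ric(g) ≥ -g`, for every point `x₀` and every neighbourhood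
`U` of `x₀` there is a pole function with constant `K`. -/
theorem exists_poleFn (n : ℕ) (hn : 2 ≤ n) : ∃ K : ℝ, 0 < K ∧
    ∀ (X : Type) [TopologicalSpace X] [T2Space X] [CompactSpace X] [ChartedSpace (Cm n) X]
      [IsManifold 𝓘(ℂ, Cm n) ω X] (g : Chart n X → Cm n → Matrix (Fin n) (Fin n) ℂ)
      (_ : IsKahler g)
      (_ : ∀ e x, At e x →
        (-cHess (fun z => Real.log (g e z).det.re) (e x) + g e (e x)).PosSemidef)
      (x0 : X) (U : Set X) (_ : U ∈ 𝓝 x0), ∃ G f0 : X → ℝ, PoleFn g U K G f0 := by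
  obtain ⟨S, B, C, pr⟩ := existsProfile hn
  have hMB := MB_pos (B := B) (show 1 ≤ n by omega) pr
  have hC := pr.one_le
  refine ⟨KP n B C, ?_, ?_⟩
  · unfold KP
    positivity
  · intro X _ _ _ _ _ g hg hR x0 U hU
    exact exists_poleFn_of hn pr (nearEst hn pr) (farEst hn pr) (massEst n) hg hR x0 hU

end Vale.Agent.P272.K.AMP.Pole
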