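import Vale.Agent.P272.K.AMP.Pole.Defs

/-!
# Block E1: two-sided barrier estimate for the solution of `u - Δu = ε^{-2n} B(Q/ε²)`
-/

open scoped Manifold ContDiff ComplexOrder Topology ComplexConjugate
open Complex Set Filter

set_option linter.all false

noncomputable section

namespace Vale.Agent.P272.K.AMP.Pole

variable {n : ℕ} {S B : ℝ → ℝ} {C : ℝ}

lemma contDiff_Fe (hS : ContDiff ℝ ∞ S) (ε : ℝ) : ContDiff ℝ ∞ (Fe n S ε) :=
  contDiff_const.mul (hS.comp (contDiff_id.div_const _))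

lemma contDiffAt_He {ε t : ℝ} (hε : 0 < ε) (ht : 0 ≤ t) : ContDiffAt ℝ ∞ (He n ε) t := by
  have h : (0 : ℝ) < t + ε ^ 2 := by positivity
  exact (contDiffAt_id.add contDiffAt_const).rpow_const_of_ne h.ne'

variable {X : Type*} [TopologicalSpace X] [ChartedSpace (Cm n) X]
  [IsManifold 𝓘(ℂ, Cm n) ω X] {g : Chart n X → Cm n → Matrix (Fin n) (Fin n) ℂ}
  {e : Chart n X} {x0 : X} {U : Set X} {Q : X → ℝ} {r A : ℝ}

lemma sm_Fe (hS : ContDiff ℝ ∞ S) (ε : ℝ) (hQ : SmoothFn (n := n) Q) :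
    SmoothFn (n := n) (fun x => Fe n S ε (Q x)) :=
  fun e x hx => (contDiff_Fe hS ε).contDiffAt.comp (e x) (hQ e x hx)

lemma sm_He {ε : ℝ} (hε : 0 < ε) (hQ : SmoothFn (n := n) Q) (h0 : ∀ x, 0 ≤ Q x) :
    SmoothFn (n := n) (fun x => He n ε (Q x)) :=
  sm_comp (φ := He n ε) (fun x => contDiffAt_He hε (h0 x)) hQ

lemma op_comp {φ : ℝ → ℝ} {x : X} (hφ : ContDiffAt ℝ 2 φ (Q x)) (hQ : SmoothFn (n := n) Q) :
    φ (Q x) - lapX g (fun x => φ (Q x)) x = opE φ (Q x) (lapX g Q x) (gradX g Q Q x) := by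
  rw [lapX_comp' hφ hQ]; rfl

lemma exists_bound [CompactSpace X] {f : X → ℝ} (hf : SmoothFn (n := n) f) :
    ∃ M : ℝ, 0 ≤ M ∧ ∀ x, |f x| ≤ M := by
  obtain ⟨M, hM⟩ := isCompact_univ.exists_bound_of_continuousOn (sm_continuous hf).continuousOn
  exact ⟨max M 0, le_max_right _ _, fun x => (hM x (mem_univ x)).trans (le_max_left _ _)⟩

lemma two_le_infty : (2 : WithTop ℕ∞) ≤ ∞ := by norm_cast

/-- **Block E1.** -/
theorem barrier [CompactSpace X] (pr : Profile n S B C) (hN : NearEst n S B)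
    (hF : FarEst n S) (hg : IsHermitian g) (hQ : QFun g e x0 U Q r A) :
    ∃ C' : ℝ, 0 ≤ C' ∧ ∃ ε0 : ℝ, 0 < ε0 ∧ ε0 ≤ 1 ∧ ∀ ε : ℝ, 0 < ε → ε ≤ ε0 → ∀ u : X → ℝ,
      SmoothFn (n := n) u → (∀ x, u x - lapX g u x = (ε ^ (2 * n))⁻¹ * B (Q x / ε ^ 2)) →
      ∀ x, |u x - Fe n S ε (Q x)| ≤ He n ε (Q x) + C' := by
  obtain ⟨r1, hr1, hr1', hnear⟩ := hN A hQ.A_nonneg
  set r2 : ℝ := min r r1 / 2 with hr2
  have hmin : 0 < min r r1 := lt_min hQ.r_pos hr1
  have hr2p : 0 < r2 := by positivity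
  have hr2r : r2 ≤ r := by have := min_le_left r r1; linarith
  have hr2r1 : 2 * r2 ≤ r1 := by have := min_le_right r r1; linarith
  obtain ⟨M1, hM1, hb1⟩ := exists_bound (n := n) hQ.smooth
  obtain ⟨M2, hM2, hb2⟩ := exists_bound (n := n) (smoothFn_lapX hg hQ.smooth)
  obtain ⟨M3, hM3, hb3⟩ := exists_bound (n := n) (smoothFn_gradX hg hQ.smooth hQ.smooth)
  obtain ⟨C0, hC0, hfar⟩ := hF r2 (M1 + M2 + M3) hr2p
  have hε0 : 0 < min 1 (√(r2 / 2)) := lt_min one_pos (Real.sqrt_pos.2 (by positivity))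
  refine ⟨2 * C0, by positivity, min 1 (√(r2 / 2)), hε0, min_le_left _ _, ?_⟩
  intro ε hε hεle u hu heq
  have hε1 : ε ≤ 1 := hεle.trans (min_le_left _ _)
  have hεr : 2 * ε ^ 2 ≤ r2 := by
    have h1 : ε ≤ √(r2 / 2) := hεle.trans (min_le_right _ _)
    have h2 : ε ^ 2 ≤ √(r2 / 2) ^ 2 := pow_le_pow_left₀ hε.le h1 2
    rw [Real.sq_sqrt (by positivity)] at h2
    linarith
  set f : X → ℝ := fun x => (ε ^ (2 * n))⁻¹ * B (Q x / ε ^ 2) with hf
  -- the key pointwise inequality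
  have key : ∀ x, |opE (Fe n S ε) (Q x) (lapX g Q x) (gradX g Q Q x) - f x| ≤
      opE (He n ε) (Q x) (lapX g Q x) (gradX g Q Q x) + 2 * C0 := by
    intro x
    by_cases hx : Q x ≤ r2
    · have h1 := hnear ε (Q x) (lapX g Q x) (gradX g Q Q x) hε (hQ.nonneg x) (by linarith)
        (hQ.lap x (hx.trans hr2r)) (hQ.grad x (hx.trans hr2r))
      have h2 : (0:ℝ) ≤ 2 * C0 := by positivity
      exact h1.trans (le_add_of_nonneg_right h2)
    · push Not at hx
      have h1 := hfar ε (Q x) (lapX g Q x) (gradX g Q Q x) hε hε1 hεr hx.le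
        ((le_abs_self _).trans ((hb1 x).trans (by linarith))) ((hb2 x).trans (by linarith))
        ((hb3 x).trans (by linarith))
      have h2 : f x = 0 := by
        have : B (Q x / ε ^ 2) = 0 := by
          apply pr.B_supp
          right
          rw [le_div_iff₀ (by positivity)]
          nlinarith [sq_nonneg ε]
        rw [hf]; simp only; rw [this, mul_zero]
      rw [h2, sub_zero]
      have h3 := (abs_le.1 h1.2).1
      linarith [h1.1]
  have hp := hg.posDef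
  have hFs := sm_Fe (n := n) pr.smS ε hQ.smooth
  have hHs := sm_He (n := n) hε hQ.smooth hQ.nonneg
  have hc := smoothFn_const (n := n) (X := X) (2 * C0)
  have hFH := sm_add hFs hHs
  have hFH' := sm_sub hFs hHs
  have opF : ∀ x, Fe n S ε (Q x) - lapX g (fun x => Fe n S ε (Q x)) x =
      opE (Fe n S ε) (Q x) (lapX g Q x) (gradX g Q Q x) := fun x =>
    op_comp ((contDiff_Fe pr.smS ε).contDiffAt.of_le two_le_infty) hQ.smooth
  have opH : ∀ x, He n ε (Q x) - lapX g (fun x => He n ε (Q x)) x =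
      opE (He n ε) (Q x) (lapX g Q x) (gradX g Q Q x) := fun x =>
    op_comp ((contDiffAt_He hε (hQ.nonneg x)).of_le two_le_infty) hQ.smooth
  have up := le_of_sub_lap_le_sub_lap (g := g) hp hu (sm_add hFH hc) (fun x => by
    rw [lapX_add' hFH hc, lapX_add' hFs hHs, lapX_const', heq x]
    have h1 := opF x
    have h2 := opH x
    have h3 := (abs_le.1 (key x)).1
    linarith)
  have lo := le_of_sub_lap_le_sub_lap (g := g) hp (sm_sub hFH' hc) hu (fun x => by
    rw [lapX_sub' hFH' hc, lapX_sub' hFs hHs, lapX_const', heq x]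
    have h1 := opF x
    have h2 := opH x
    have h3 := (abs_le.1 (key x)).2
    linarith)
  intro x
  rw [abs_le]
  exact ⟨by linarith [lo x], by linarith [up x]⟩

end Vale.Agent.P272.K.AMP.Pole
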