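import Vale.Agent.P272.K.AMP.Calc
import Vale.Agent.P272.K.AMP.QH.Boch

/-!
# Block C: the Bernstein gradient bound for `u - Δu = f`, `Ric(g) ≥ -g`
-/

open scoped Manifold ContDiff ComplexOrder Topology
open Complex Set Filter

set_option linter.all false

noncomputable section

namespace Vale.Agent.P272.K.AMP.Pole

variable {n : ℕ} {X : Type*} [TopologicalSpace X] [ChartedSpace (Cm n) X]
  [IsManifold 𝓘(ℂ, Cm n) ω X]

/-- `|A|²_G ≥ 0` for Hermitian `A` -/
lemma sq_nn {G A : Matrix (Fin n) (Fin n) ℂ} (hG : G.PosDef) (hA : A.IsHermitian) :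
    0 ≤ (G⁻¹ * A * (G⁻¹ * A)).trace.re := by
  have h1 : (A * G⁻¹ * A).PosSemidef := by
    have := hG.inv.posSemidef.mul_mul_conjTranspose_same A
    rwa [hA.eq] at this
  have h2 := C2.trace_mul_nonneg hG.inv.posSemidef h1
  rw [Complex.le_def] at h2
  have h3 : G⁻¹ * A * (G⁻¹ * A) = G⁻¹ * (A * G⁻¹ * A) := by simp only [Matrix.mul_assoc]
  rw [h3]
  simpa using h2.1

/-- **Bernstein**: if `u - Δu = f`, `0 ≤ u ≤ M`, `0 ≤ f ≤ F`, `|∂f|² ≤ D`, then
`|∂u|² ≤ D/λ² + 2MF + λM²`. -/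
theorem bernstein [CompactSpace X] {g : Chart n X → Cm n → Matrix (Fin n) (Fin n) ℂ}
    (hg : IsKahler g)
    (hR : ∀ e x, At e x →
      (-cHess (fun z => Real.log (g e z).det.re) (e x) + g e (e x)).PosSemidef)
    {u f : X → ℝ} (hu : SmoothFn (n := n) u) (hf : SmoothFn (n := n) f)
    (heq : ∀ x, u x - lapX g u x = f x) {l M F D : ℝ} (hl : 0 < l)
    (hu0 : ∀ x, 0 ≤ u x) (huM : ∀ x, u x ≤ M) (hf0 : ∀ x, 0 ≤ f x) (hfF : ∀ x, f x ≤ F)
    (hD : ∀ x, gradX g f f x ≤ D) (x : X) :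
    gradX g u u x ≤ D / l ^ 2 + 2 * M * F + l * M ^ 2 := by
  have hgH := hg.toIsHermitian
  have hp := hgH.posDef
  have hgr := smoothFn_gradX hgH hu hu
  have huu := sm_mul hu hu
  have hluu := sm_const_mul l huu
  have hP : SmoothFn (n := n) (fun x => gradX g u u x + l * (u x * u x)) := sm_add hgr hluu
  obtain ⟨x0, h1, h2⟩ := exists_max hP x
  -- the bound at the maximum point
  have hb := bochner_ineq hg hR hu (at_chartAt x0)
  have hsq : 0 ≤ sqE g (hess u) (chartAt (Cm n) x0) (chartAt (Cm n) x0 x0) :=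
    sq_nn (hp _ _ (at_chartAt x0)) (cHess_isHermitian (sm_two hu (at_chartAt x0)))
  have hlap := lapX_nonpos_of_max (g := g) hp hP h2
  rw [lapX_add' hgr hluu, lapX_const_mul' l huu, lapX_mul hp hu hu] at hlap
  have hL : lapX g u x0 = u x0 - f x0 := by linarith [heq x0]
  have hLf : lapX g u = fun x => u x - f x := by funext y; linarith [heq y]
  have hgl : gradX g (lapX g u) u x0 = gradX g u u x0 - gradX g f u x0 := by
    rw [hLf, gradX_sub_left hu hf]
  rw [hgl] at hb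
  rw [hL] at hlap
  have hcs := gradX_sq_le hp hf hu x0
  have hGu := gradX_self_nonneg hp u x0
  have hGf := gradX_self_nonneg hp f x0
  set a := gradX g u u x0 with ha
  set b := gradX g f f x0 with hbdef
  set c := gradX g f u x0 with hc
  -- 2c ≤ b/l + l a
  have h3 : 2 * c ≤ b / l + l * a := by
    have h4 : (2 * c) ^ 2 ≤ (b / l + l * a) ^ 2 := by
      have h5 : (b / l + l * a) ^ 2 = (b / l - l * a) ^ 2 + 4 * (a * b) := by
        field_simp; ring
      rw [h5]
      nlinarith [sq_nonneg (b / l - l * a)]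
    have h6 : 0 ≤ b / l + l * a := add_nonneg (div_nonneg hGf hl.le) (mul_nonneg hl.le hGu)
    exact abs_le_of_sq_le_sq' h4 h6 |>.2
  have h4 : a ≤ D / l ^ 2 + 2 * M * F := by
    have h5 : b / l ≤ D / l := div_le_div_of_nonneg_right (hD x0) hl.le
    have h6 : u x0 * f x0 ≤ M * F :=
      mul_le_mul (huM x0) (hfF x0) (hf0 x0) ((hu0 x0).trans (huM x0))
    have h7 : l * a ≤ D / l + 2 * l * (M * F) := by
      have h8 : 0 ≤ l * (u x0 * u x0) := mul_nonneg hl.le (mul_self_nonneg _)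
      nlinarith [mul_le_mul_of_nonneg_left h6 hl.le]
    have h9 : l * a ≤ l * (D / l ^ 2 + 2 * M * F) := by
      have : l * (D / l ^ 2 + 2 * M * F) = D / l + 2 * l * (M * F) := by field_simp
      linarith
    exact le_of_mul_le_mul_left h9 hl
  have h5 := h1 x
  have h6 : u x0 * u x0 ≤ M ^ 2 := by
    rw [sq]; exact mul_le_mul (huM x0) (huM x0) (hu0 x0) ((hu0 x0).trans (huM x0))
  have h7 : 0 ≤ l * (u x * u x) := mul_nonneg hl.le (mul_self_nonneg _)
  have h8 := mul_le_mul_of_nonneg_left h6 hl.le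
  linarith

end Vale.Agent.P272.K.AMP.Pole
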