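import Vale.Agent.P272.K.AMP.Pole.Final
import Vale.Agent.P272.K.AMP.Main.Ample

/-!
# `PoleBlock` and ampleness in dimension `n ≥ 3`
-/

open scoped Manifold ContDiff ComplexOrder Topology ComplexConjugate

noncomputable section

namespace Vale.Agent.P272.K.AMP.Pole

open Vale.Agent.P272.K.AMP.Main

/-- Step 1 in the form used by the assembly -/
theorem poleBlock (n : ℕ) (hn : 2 ≤ n) (X : Type) [TopologicalSpace X] [ChartedSpace (Cm n) X]
    [IsManifold 𝓘(ℂ, Cm n) ω X] [T2Space X] [CompactSpace X] : PoleBlock n X := by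
  obtain ⟨K, hK, H⟩ := exists_poleFn n hn
  have hKK : K ≤ max 1 K := le_max_right _ _
  refine ⟨max 1 K, le_max_left _ _, fun g hg hr U hU x hx => ?_⟩
  obtain ⟨G, f0, P⟩ := H X g hg hr x U (hU.mem_nhds hx)
  have hG : ∀ y, 0 ≤ G y := fun y => zero_le_one.trans (P.one_le y)
  refine ⟨f0, G, P.smf, P.smG, P.f0_nonneg, ?_, P.one_le, P.eq, ?_, ?_, ?_, ?_⟩
  · intro y hy
    by_contra hc
    exact hy (P.supp (subset_tsupport _ hc))
  · intro y
    exact (P.f0_le y).trans (mul_le_mul_of_nonneg_right hKK (Real.rpow_nonneg (hG y) _))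
  · intro y hy
    exact (P.grad_le y hy).trans (mul_le_mul_of_nonneg_right hKK (Real.rpow_nonneg (hG y) _))
  · refine le_trans ?_ P.mass_ge
    rw [one_div]
    exact inv_anti₀ hK hKK
  · exact P.mass_le.trans hKK

theorem ampleDimC {n : ℕ} (hn : 3 ≤ n) : AmpleDimC n :=
  ampleDimC_of_pole hn fun X => poleBlock n (by omega) X

end Vale.Agent.P272.K.AMP.Pole
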