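import Vale.Agent.P272.K.AMP.Calc

/-!
# Step 1 (the pole function): statements of the sub-blocks

* `Profile` : the radial profile `S`, `B = -(n S' + y S'')`.
* `Fe`, `He` : the radial barriers as functions of `t = q`.
* `NearEst`, `FarEst` : the pointwise barrier inequalities (real analysis).
* `MassEst` : the mass of `B(q/ε²)` (linear change of variables).
* `QFun` : the local squared distance as a function on `X`.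
-/

open scoped Manifold ContDiff ComplexOrder Topology
open Complex Set Filter MeasureTheory

set_option linter.all false

noncomputable section

namespace Vale.Agent.P272.K.AMP.Pole

/-- The radial profile: `S y = y^{-(n-1)}` for `y ≥ 1`, `S` constant for `y ≤ 1/4`,
`-(n S' + y S'') = B ≥ 0` a bump supported in `[1/4, 3/4]`. -/
structure Profile (n : ℕ) (S B : ℝ → ℝ) (C : ℝ) : Prop where
  smS : ContDiff ℝ ∞ S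
  smB : ContDiff ℝ ∞ B
  one_le : 1 ≤ C
  B_nonneg : ∀ y, 0 ≤ B y
  B_le : ∀ y, B y ≤ C
  dB_le : ∀ y, |deriv B y| ≤ C
  B_supp : ∀ y, y ≤ 1 / 4 ∨ 3 / 4 ≤ y → B y = 0
  B_half : 0 < B (1 / 2)
  S_far : ∀ y, 1 ≤ y → S y = (y ^ (n - 1))⁻¹
  S_ge : ∀ y, y ≤ 1 → 1 ≤ S y
  S_le : ∀ y, S y ≤ C
  ode : ∀ y, n * deriv S y + y * deriv (deriv S) y = -B y
  dS_le : ∀ y, 1 / 4 ≤ y → |deriv S y| ≤ C * (y ^ n)⁻¹
  dS_zero : ∀ y, y ≤ 1 / 4 → deriv S y = 0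

/-- `F_ε(t) = ε^{-2(n-1)} S(t/ε²)` -/
def Fe (n : ℕ) (S : ℝ → ℝ) (ε : ℝ) (t : ℝ) : ℝ := (ε ^ (2 * (n - 1)))⁻¹ * S (t / ε ^ 2)

/-- `H_ε(t) = (t + ε²)^{-(n-1-1/4)}` -/
def He (n : ℕ) (ε : ℝ) (t : ℝ) : ℝ := (t + ε ^ 2) ^ (-((n : ℝ) - 5 / 4))

/-- `φ - (φ' L + φ'' N)`: the value of `φ(q) - Δ φ(q)` when `Δ q = L`, `|∂q|² = N`. -/
def opE (φ : ℝ → ℝ) (t L N : ℝ) : ℝ := φ t - (deriv φ t * L + deriv (deriv φ) t * N)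

/-- block B1 -/
def ExistsProfile (n : ℕ) : Prop := ∃ S B C, Profile n S B C

/-- block B2: near the pole -/
def NearEst (n : ℕ) (S B : ℝ → ℝ) : Prop := ∀ A : ℝ, 0 ≤ A → ∃ r : ℝ, 0 < r ∧ r ≤ 1 ∧
  ∀ ε Q L N : ℝ, 0 < ε → 0 ≤ Q → Q + ε ^ 2 ≤ r → |L - n| ≤ A * √Q → |N - Q| ≤ A * (Q * √Q) →
    |opE (Fe n S ε) Q L N - (ε ^ (2 * n))⁻¹ * B (Q / ε ^ 2)| ≤ opE (He n ε) Q L N

/-- block B3: away from the pole -/
def FarEst (n : ℕ) (S : ℝ → ℝ) : Prop := ∀ r Λ : ℝ, 0 < r → ∃ C : ℝ, 0 ≤ C ∧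
  ∀ ε Q L N : ℝ, 0 < ε → ε ≤ 1 → 2 * ε ^ 2 ≤ r → r ≤ Q → Q ≤ Λ → |L| ≤ Λ → |N| ≤ Λ →
    |opE (Fe n S ε) Q L N| ≤ C ∧ |opE (He n ε) Q L N| ≤ C

/-- the Hermitian quadratic form `Σ P_{jk} ζ_j ζ̄_k` -/
def qf {n : ℕ} (P : Matrix (Fin n) (Fin n) ℂ) (ζ : Cm n) : ℝ :=
  (∑ j, ∑ k, P j k * ζ j * (starRingEnd ℂ) (ζ k)).re

/-- block D: mass -/
def MassEst (n : ℕ) : Prop := ∀ (B : ℝ → ℝ) (P : Matrix (Fin n) (Fin n) ℂ) (ε : ℝ), Continuous B →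
  P.PosDef → 0 < ε →
    ∫ z : Cm n, B (qf P z / ε ^ 2) * P.det.re = ε ^ (2 * n) * ∫ z : Cm n, B (∑ i, ‖z i‖ ^ 2)

/-- block A: the local squared distance as a function on `X`. -/
structure QFun {n : ℕ} {X : Type*} [TopologicalSpace X] [ChartedSpace (Cm n) X]
    (g : Chart n X → Cm n → Matrix (Fin n) (Fin n) ℂ) (e : Chart n X) (x0 : X) (U : Set X)
    (Q : X → ℝ) (r A : ℝ) : Prop where
  smooth : SmoothFn (n := n) Q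
  nonneg : ∀ x, 0 ≤ Q x
  r_pos : 0 < r
  A_nonneg : 0 ≤ A
  sub : ∀ x, Q x ≤ r → x ∈ U ∧ x ∈ e.source
  eq : ∀ x, Q x ≤ r → Q x = qf (g e (e x0)) (e x - e x0)
  small : ∀ z, qf (g e (e x0)) (z - e x0) ≤ r → z ∈ e.target ∧
    Q (e.symm z) = qf (g e (e x0)) (z - e x0)
  lap : ∀ x, Q x ≤ r → |lapX g Q x - n| ≤ A * √(Q x)
  grad : ∀ x, Q x ≤ r → |gradX g Q Q x - Q x| ≤ A * (Q x * √(Q x))
  det_le : ∀ z, qf (g e (e x0)) (z - e x0) ≤ r →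
    (g e z).det.re ≤ 2 * (g e (e x0)).det.re ∧ (g e (e x0)).det.re ≤ 2 * (g e z).det.re

end Vale.Agent.P272.K.AMP.Pole
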