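import Vale.Agent.P272.K.AMP.Pole.Quad
import Vale.Agent.P272.K.N.Setup

/-!
# Block A: existence of the local squared distance `Q`
-/

open scoped Manifold ContDiff ComplexOrder Topology ComplexConjugate
open Complex Set Filter

set_option linter.all false

noncomputable section

namespace Vale.Agent.P272.K.AMP.Pole

variable {n : ℕ}

/-- `|Re tr (E M)| ≤ n² a b` -/
lemma abs_trace_le {E M : Matrix (Fin n) (Fin n) ℂ} {a b : ℝ} (ha : ∀ i j, ‖E i j‖ ≤ a)
    (hb : ∀ i j, ‖M i j‖ ≤ b) : |(E * M).trace.re| ≤ n ^ 2 * (a * b) := by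
  refine (Complex.abs_re_le_norm _).trans ?_
  simp only [Matrix.trace, Matrix.diag_apply, Matrix.mul_apply]
  refine (norm_sum_le _ _).trans ?_
  have h1 : ∀ i ∈ Finset.univ, ‖∑ j, E i j * M j i‖ ≤ n * (a * b) := by
    intro i _
    refine (norm_sum_le _ _).trans ?_
    have h2 : ∀ j ∈ Finset.univ, ‖E i j * M j i‖ ≤ a * b := by
      intro j _
      rw [norm_mul]
      exact mul_le_mul (ha i j) (hb j i) (norm_nonneg _) ((norm_nonneg _).trans (ha i j))
    refine (Finset.sum_le_card_nsmul _ _ _ h2).trans ?_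
    simp
  refine (Finset.sum_le_card_nsmul _ _ _ h1).trans ?_
  simp only [Finset.card_univ, Fintype.card_fin, nsmul_eq_mul]
  apply le_of_eq; ring

/-- Lipschitz bound at a point -/
lemma exists_lip {f : Cm n → ℂ} {z0 : Cm n} (hf : ContDiffAt ℝ ∞ f z0) :
    ∃ C : ℝ, 0 ≤ C ∧ ∀ᶠ z in 𝓝 z0, ‖f z - f z0‖ ≤ C * ‖z - z0‖ := by
  have h1 := (hf.differentiableAt (by simp)).hasFDerivAt.isBigO_sub
  obtain ⟨C, hC, h2⟩ := h1.exists_pos
  exact ⟨C, hC.le, h2.bound⟩

variable {X : Type*} [TopologicalSpace X] [ChartedSpace (Cm n) X]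
  {g : Chart n X → Cm n → Matrix (Fin n) (Fin n) ℂ}

/-- sum of the norms of the entries -/
def sn (P : Matrix (Fin n) (Fin n) ℂ) : ℝ := ∑ i, ∑ j, ‖P i j‖

lemma sn_nonneg (P : Matrix (Fin n) (Fin n) ℂ) : 0 ≤ sn P :=
  Finset.sum_nonneg fun i _ => Finset.sum_nonneg fun j _ => norm_nonneg _

lemma entry_le_sn (P : Matrix (Fin n) (Fin n) ℂ) (i j : Fin n) : ‖P i j‖ ≤ sn P := by
  have h1 : ‖P i j‖ ≤ ∑ j, ‖P i j‖ :=
    Finset.single_le_sum (f := fun j => ‖P i j‖) (fun j _ => norm_nonneg _) (Finset.mem_univ j)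
  have h2 : ∑ j, ‖P i j‖ ≤ sn P :=
    Finset.single_le_sum (f := fun i => ∑ j, ‖P i j‖)
      (fun i _ => Finset.sum_nonneg fun j _ => norm_nonneg _) (Finset.mem_univ i)
  exact h1.trans h2

lemma row_le_sn (P : Matrix (Fin n) (Fin n) ℂ) (i : Fin n) : ∑ k, ‖P i k‖ ≤ sn P :=
  Finset.single_le_sum (f := fun i => ∑ j, ‖P i j‖)
      (fun i _ => Finset.sum_nonneg fun j _ => norm_nonneg _) (Finset.mem_univ i)

lemma col_le_sn (P : Matrix (Fin n) (Fin n) ℂ) (k : Fin n) : ∑ j, ‖P j k‖ ≤ sn P := by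
  unfold sn
  rw [Finset.sum_comm]
  exact Finset.single_le_sum (f := fun k => ∑ j, ‖P j k‖)
      (fun i _ => Finset.sum_nonneg fun j _ => norm_nonneg _) (Finset.mem_univ k)

lemma norm_ell_le (P : Matrix (Fin n) (Fin n) ℂ) (z0 z : Cm n) (k : Fin n) :
    ‖ell P z0 k z‖ ≤ sn P * ‖z - z0‖ := by
  unfold ell
  refine (norm_sum_le _ _).trans ?_
  calc ∑ j, ‖P j k * (z j - z0 j)‖ ≤ ∑ j, ‖P j k‖ * ‖z - z0‖ := by
        refine Finset.sum_le_sum fun j _ => ?_
        rw [norm_mul]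
        exact mul_le_mul_of_nonneg_left (norm_le_pi_norm (z - z0) j) (norm_nonneg _)
    _ = (∑ j, ‖P j k‖) * ‖z - z0‖ := by rw [Finset.sum_mul]
    _ ≤ _ := mul_le_mul_of_nonneg_right (col_le_sn P k) (norm_nonneg _)

lemma norm_dq_le (P : Matrix (Fin n) (Fin n) ℂ) (z0 z : Cm n) (i : Fin n) :
    ‖∑ k, P i k * conj (z k - z0 k)‖ ≤ sn P * ‖z - z0‖ := by
  refine (norm_sum_le _ _).trans ?_
  calc ∑ k, ‖P i k * conj (z k - z0 k)‖ ≤ ∑ k, ‖P i k‖ * ‖z - z0‖ := by
        refine Finset.sum_le_sum fun k _ => ?_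
        rw [norm_mul, RCLike.norm_conj]
        exact mul_le_mul_of_nonneg_left (norm_le_pi_norm (z - z0) k) (norm_nonneg _)
    _ = (∑ k, ‖P i k‖) * ‖z - z0‖ := by rw [Finset.sum_mul]
    _ ≤ _ := mul_le_mul_of_nonneg_right (row_le_sn P i) (norm_nonneg _)

open LIN in
/-- **Block A.** -/
theorem exists_QFun [T2Space X] [IsManifold 𝓘(ℂ, Cm n) ω X] (hg : IsHermitian g)
    {e : Chart n X} {x0 : X} (hx : At e x0) {U : Set X} (hU : U ∈ 𝓝 x0) :
    ∃ (Q : X → ℝ) (r A : ℝ), QFun g e x0 U Q r A := by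
  set z0 := e x0 with hz0
  set P := g e z0 with hPdef
  have hP : P.PosDef := hg.posDef e x0 hx
  obtain ⟨l, hl, hql⟩ := exists_qf_ge hP
  -- the good neighbourhood
  have hinv : ∀ i j, ContDiffAt ℝ ∞ (fun y => (g e y)⁻¹ i j) z0 :=
    fun i j => contDiffAt_inv (hg.smooth e x0 hx) hP.det_pos.ne' i j
  choose C hC0 hC using fun i j => exists_lip (hinv i j)
  set CE := ∑ i, ∑ j, C i j with hCE
  have hCE0 : 0 ≤ CE := Finset.sum_nonneg fun i _ => Finset.sum_nonneg fun j _ => hC0 i j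
  have hCle : ∀ i j, C i j ≤ CE := by
    intro i j
    have h1 : C i j ≤ ∑ j, C i j :=
      Finset.single_le_sum (f := fun j => C i j) (fun j _ => hC0 i j) (Finset.mem_univ j)
    have h2 : ∑ j, C i j ≤ CE :=
      Finset.single_le_sum (f := fun i => ∑ j, C i j)
        (fun i _ => Finset.sum_nonneg fun j _ => hC0 i j) (Finset.mem_univ i)
    exact h1.trans h2
  have hev1 : ∀ᶠ z in 𝓝 z0, ∀ i j, ‖(g e z)⁻¹ i j - P⁻¹ i j‖ ≤ CE * ‖z - z0‖ := by
    have : ∀ᶠ z in 𝓝 z0, ∀ i j, ‖(g e z)⁻¹ i j - P⁻¹ i j‖ ≤ C i j * ‖z - z0‖ :=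
      eventually_all.2 fun i => eventually_all.2 fun j => hC i j
    filter_upwards [this] with z hz i j
    exact (hz i j).trans (mul_le_mul_of_nonneg_right (hCle i j) (norm_nonneg _))
  have hdetc : ContinuousAt (fun y => (g e y).det.re) z0 :=
    Complex.continuous_re.continuousAt.comp
      (contDiffAt_det (m := ∞) (hg.smooth e x0 hx)).continuousAt
  have hdet0 : 0 < P.det.re := (Complex.lt_def.1 hP.det_pos).1
  have hev2 : ∀ᶠ z in 𝓝 z0, (g e z).det.re < 2 * P.det.re ∧ P.det.re / 2 < (g e z).det.re :=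
    (hdetc.eventually (gt_mem_nhds (by show P.det.re < 2 * P.det.re; linarith))).and
      (hdetc.eventually (lt_mem_nhds (by show P.det.re / 2 < P.det.re; linarith)))
  have hev3 : ∀ᶠ z in 𝓝 z0, z ∈ e.target := e.open_target.mem_nhds (e.map_source hx.2)
  have hev4 : ∀ᶠ z in 𝓝 z0, e.symm z ∈ U := by
    have hc : ContinuousAt e.symm z0 := e.symm.continuousAt (e.map_source hx.2)
    refine hc.eventually ?_
    rw [hz0, e.left_inv hx.2]
    exact hU
  obtain ⟨δ0, hδ0, hball0⟩ := Metric.eventually_nhds_iff_ball.1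
    (hev1.and (hev2.and (hev3.and hev4)))
  set δ := δ0 / 2 with hδ
  have hδp : 0 < δ := by positivity
  have hgood : ∀ z ∈ Metric.closedBall z0 δ, (∀ i j, ‖(g e z)⁻¹ i j - P⁻¹ i j‖ ≤ CE * ‖z - z0‖) ∧
      ((g e z).det.re < 2 * P.det.re ∧ P.det.re / 2 < (g e z).det.re) ∧ z ∈ e.target ∧
      e.symm z ∈ U := by
    intro z hz
    refine hball0 z ?_
    rw [Metric.mem_ball]
    rw [Metric.mem_closedBall] at hz
    linarith
  -- the bump
  let ρ : ContDiffBump z0 :=
    { rIn := δ / 2, rOut := δ, rIn_pos := by positivity, rIn_lt_rOut := by linarith }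
  set r : ℝ := l * δ ^ 2 / 8 with hr
  have hrp : 0 < r := by positivity
  let q : Cm n → ℝ := fun y => qf P (y - z0)
  have hqlow : ∀ y, δ / 2 ≤ ‖y - z0‖ → 2 * r ≤ q y := by
    intro y hy
    have h1 := hql (y - z0)
    have h2 : (δ / 2) ^ 2 ≤ ‖y - z0‖ ^ 2 := pow_le_pow_left₀ (by positivity) hy 2
    have h3 := mul_le_mul_of_nonneg_left h2 hl.le
    show 2 * r ≤ qf P (y - z0)
    rw [hr]
    nlinarith
  let Qc : Cm n → ℝ := fun y => ρ y * (q y - 2 * r)
  let Q : X → ℝ := fun x => 2 * r + ext0 e Qc x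
  have hQck : CkFn (Cm n) ∞ (ext0 e Qc) := by
    refine ext0_ck le_rfl hx.1 (K := Metric.closedBall z0 δ) (isCompact_closedBall _ _)
      (fun z hz => (hgood z hz).2.2.1) (fun y hy => ?_) fun y _ => ?_
    · have : ρ y = 0 := ρ.zero_of_le_dist (by
        rw [Metric.mem_closedBall, not_le] at hy
        exact hy.le)
      show ρ y * _ = 0
      rw [this, zero_mul]
    · exact ρ.contDiffAt.mul (contDiff_qf.contDiffAt.sub contDiffAt_const)
  have hQs : SmoothFn (n := n) Q := by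
    have h1 : SmoothFn (n := n) (ext0 e Qc) := N.smoothFn_iff.2 hQck
    exact sm_add (smoothFn_const (2 * r)) h1
  have hin : ∀ y ∈ Metric.ball z0 (δ / 2), y ∈ e.target ∧ Q (e.symm y) = q y := by
    intro y hy
    have hy' : y ∈ Metric.closedBall z0 δ := by
      rw [Metric.mem_ball] at hy; rw [Metric.mem_closedBall]; linarith
    have ht := (hgood y hy').2.2.1
    refine ⟨ht, ?_⟩
    show 2 * r + ext0 e Qc (e.symm y) = q y
    rw [ext0_of_mem (e.map_target ht), e.right_inv ht]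
    show 2 * r + ρ y * (q y - 2 * r) = q y
    have : ρ y = 1 := ρ.one_of_mem_closedBall (Metric.ball_subset_closedBall hy)
    rw [this]; ring
  have hqn : ∀ y, 0 ≤ q y := fun y => qf_nonneg hP _
  have hQge : ∀ x, (x ∈ e.source ∧ e x ∈ Metric.ball z0 (δ / 2)) ∨ 2 * r ≤ Q x := by
    intro x
    by_cases hxs : x ∈ e.source
    · by_cases hb : e x ∈ Metric.ball z0 (δ / 2)
      · exact Or.inl ⟨hxs, hb⟩
      · right
        show 2 * r ≤ 2 * r + ext0 e Qc x
        rw [ext0_of_mem hxs]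
        have h1 : 2 * r ≤ q (e x) := hqlow _ (by
          rw [Metric.mem_ball, not_lt, dist_eq_norm] at hb; exact hb)
        have h2 : 0 ≤ ρ (e x) * (q (e x) - 2 * r) := mul_nonneg ρ.nonneg (by linarith)
        show 2 * r ≤ 2 * r + ρ (e x) * (q (e x) - 2 * r)
        linarith
    · right
      show 2 * r ≤ 2 * r + ext0 e Qc x
      rw [ext0_of_notMem hxs, add_zero]
  have hmem : ∀ x, Q x ≤ r → x ∈ e.source ∧ e x ∈ Metric.ball z0 (δ / 2) := by
    intro x hxr
    rcases hQge x with h | h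
    · exact h
    · exfalso; linarith
  have hQx : ∀ x, Q x ≤ r → Q x = q (e x) := by
    intro x hxr
    obtain ⟨h1, h2⟩ := hmem x hxr
    have := (hin _ h2).2
    rwa [e.left_inv h1] at this
  -- norm bound
  set κ : ℝ := √(1 / l) with hκ
  have hκ0 : 0 ≤ κ := Real.sqrt_nonneg _
  have hnorm : ∀ x, Q x ≤ r → ‖e x - z0‖ ≤ κ * √(Q x) := by
    intro x hxr
    rw [hκ, ← Real.sqrt_mul (by positivity)]
    refine Real.le_sqrt_of_sq_le ?_
    have h1 := hql (e x - z0)
    rw [hQx x hxr]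
    show _ ≤ 1 / l * qf P (e x - z0)
    rw [one_div, ← div_eq_inv_mul, le_div_iff₀ hl]
    linarith
  -- Hessian and gradient
  have hEv : ∀ x, Q x ≤ r → (fun y => Q (e.symm y)) =ᶠ[𝓝 (e x)] q := by
    intro x hxr
    obtain ⟨h1, h2⟩ := hmem x hxr
    filter_upwards [Metric.isOpen_ball.mem_nhds h2] with y hy using (hin y hy).2
  have hHess : ∀ x, Q x ≤ r → hess Q e (e x) = P := by
    intro x hxr
    show cHess (fun y => Q (e.symm y)) (e x) = P
    rw [cHess_congr (hEv x hxr)]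
    exact cHess_qf hP.isHermitian
  have hDD : ∀ x, Q x ≤ r → dd Q Q e (e x) =
      Matrix.of fun i j => (∑ k, P i k * conj (e x k - z0 k)) * ell P z0 j (e x) := by
    intro x hxr
    have hE : (fun y => ((Q (e.symm y) : ℝ) : ℂ)) =ᶠ[𝓝 (e x)]
        fun y => ((qf P (y - z0) : ℝ) : ℂ) := by
      filter_upwards [hEv x hxr] with y hy
      rw [hy]
    ext i j
    simp only [dd, Matrix.of_apply]
    rw [INT.dz_congr hE, INT.dzb_congr hE, dz_qf hP.isHermitian, dzb_qf hP.isHermitian]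
  have hErr : ∀ x, Q x ≤ r → ∀ i j, ‖((g e (e x))⁻¹ - P⁻¹) i j‖ ≤ CE * (κ * √(Q x)) := by
    intro x hxr i j
    obtain ⟨h1, h2⟩ := hmem x hxr
    have h3 : e x ∈ Metric.closedBall z0 δ := by
      rw [Metric.mem_ball] at h2; rw [Metric.mem_closedBall]; linarith
    exact ((hgood _ h3).1 i j).trans (mul_le_mul_of_nonneg_left (hnorm x hxr) hCE0)
  have hdetu : IsUnit P.det := (Matrix.isUnit_iff_isUnit_det P).1 hP.isUnit
  set p := sn P with hp
  have hp0 : 0 ≤ p := sn_nonneg P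
  refine ⟨Q, r, n ^ 2 * (CE * κ * p) + n ^ 2 * (CE * κ * (p * κ) ^ 2), ?_⟩
  refine
    { smooth := hQs
      nonneg := ?_
      r_pos := hrp
      A_nonneg := by positivity
      sub := ?_
      eq := ?_
      small := ?_
      lap := ?_
      grad := ?_
      det_le := ?_ }
  · intro x
    by_cases hxr : Q x ≤ r
    · rw [hQx x hxr]; exact hqn _
    · push Not at hxr; linarith
  · intro x hxr
    obtain ⟨h1, h2⟩ := hmem x hxr
    have h3 : e x ∈ Metric.closedBall z0 δ := by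
      rw [Metric.mem_ball] at h2; rw [Metric.mem_closedBall]; linarith
    refine ⟨?_, h1⟩
    have := (hgood _ h3).2.2.2
    rwa [e.left_inv h1] at this
  · intro x hxr
    exact hQx x hxr
  · intro z hz
    have hzb : z ∈ Metric.ball z0 (δ / 2) := by
      rw [Metric.mem_ball, dist_eq_norm]
      by_contra hc
      push Not at hc
      have := hqlow z hc
      have hz' : q z ≤ r := hz
      linarith
    exact hin z hzb
  · intro x hxr
    obtain ⟨h1, h2⟩ := hmem x hxr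
    have hAt : At e x := ⟨hx.1, h1⟩
    have e1 : lapX g Q x = ((g e (e x))⁻¹ * P).trace.re := by
      rw [lapX_eq hg hQs hAt]
      show ((g e (e x))⁻¹ * hess Q e (e x)).trace.re = _
      rw [hHess x hxr]
    have e2 : ((n : ℝ)) = (P⁻¹ * P).trace.re := by
      rw [Matrix.nonsing_inv_mul _ hdetu, Matrix.trace_one]; simp
    have e3 : lapX g Q x - n = (((g e (e x))⁻¹ - P⁻¹) * P).trace.re := by
      rw [e1, Matrix.sub_mul, Matrix.trace_sub, Complex.sub_re, ← e2]
    rw [e3]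
    refine (abs_trace_le (hErr x hxr) (entry_le_sn P)).trans ?_
    have h4 : (n : ℝ) ^ 2 * (CE * (κ * √(Q x)) * sn P) = n ^ 2 * (CE * κ * p) * √(Q x) := by
      rw [hp]; ring
    rw [h4]
    refine mul_le_mul_of_nonneg_right ?_ (Real.sqrt_nonneg _)
    have : 0 ≤ (n : ℝ) ^ 2 * (CE * κ * (p * κ) ^ 2) := by positivity
    linarith
  · intro x hxr
    obtain ⟨h1, h2⟩ := hmem x hxr
    have hAt : At e x := ⟨hx.1, h1⟩
    set M : Matrix (Fin n) (Fin n) ℂ :=
      Matrix.of fun i j => (∑ k, P i k * conj (e x k - z0 k)) * ell P z0 j (e x) with hM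
    have e1 : gradX g Q Q x = ((g e (e x))⁻¹ * M).trace.re := by
      rw [gradX_eq hg hQs hQs hAt]
      show ((g e (e x))⁻¹ * dd Q Q e (e x)).trace.re = _
      rw [hDD x hxr]
    have e2 : Q x = (P⁻¹ * M).trace.re := by
      rw [hM, trace_grad_qf hP, Complex.ofReal_re]; exact hQx x hxr
    have e3 : gradX g Q Q x - Q x = (((g e (e x))⁻¹ - P⁻¹) * M).trace.re := by
      rw [e1, Matrix.sub_mul, Matrix.trace_sub, Complex.sub_re, ← e2]
    rw [e3]
    have hQn : 0 ≤ Q x := by rw [hQx x hxr]; exact hqn _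
    have hMb : ∀ i j, ‖M i j‖ ≤ (p * (κ * √(Q x))) ^ 2 := by
      intro i j
      rw [hM, Matrix.of_apply, norm_mul, sq]
      have h3 : sn P * ‖e x - z0‖ ≤ p * (κ * √(Q x)) :=
        mul_le_mul_of_nonneg_left (hnorm x hxr) hp0
      exact mul_le_mul ((norm_dq_le P z0 (e x) i).trans h3) ((norm_ell_le P z0 (e x) j).trans h3)
        (norm_nonneg _) (by positivity)
    refine (abs_trace_le (hErr x hxr) hMb).trans ?_
    have h4 : (n : ℝ) ^ 2 * (CE * (κ * √(Q x)) * (p * (κ * √(Q x))) ^ 2) =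
        n ^ 2 * (CE * κ * (p * κ) ^ 2) * (√(Q x) ^ 2 * √(Q x)) := by ring
    rw [h4, Real.sq_sqrt hQn]
    refine mul_le_mul_of_nonneg_right ?_ (mul_nonneg hQn (Real.sqrt_nonneg _))
    have : 0 ≤ (n : ℝ) ^ 2 * (CE * κ * p) := by positivity
    linarith
  · intro z hz
    have hzb : z ∈ Metric.closedBall z0 δ := by
      rw [Metric.mem_closedBall, dist_eq_norm]
      by_contra hc
      push Not at hc
      have := hqlow z (by linarith)
      have hz' : q z ≤ r := hz
      linarith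
    have h := (hgood z hzb).2.1
    exact ⟨h.1.le, by linarith [h.2]⟩

end Vale.Agent.P272.K.AMP.Pole
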