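import Vale.Agent.P272.K.AMP.Pole.MassB
import Vale.Agent.P272.K.AMP.Pole.QFunEx
import Vale.Agent.P272.K.AMP.Pole.Bern

/-!
# Step 1: the pole function (assembly), from the blocks `ExistsProfile`, `NearEst`, `FarEst`,
`MassEst`
-/

open scoped Manifold ContDiff ComplexOrder Topology ComplexConjugate
open Complex Set Filter MeasureTheory

set_option linter.all false

noncomputable section

namespace Vale.Agent.P272.K.AMP.Pole

variable {n : ℕ} {S B : ℝ → ℝ} {C : ℝ}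

/-- The output of Step 1: `G - ΔG = 1 + f₀`, `G ≥ 1`, `f₀ ≥ 0` supported in `U`,
`f₀ ≤ K G^{n/(n-1)}`, `|∂G|² ≤ K G^{2+1/(n-1)}` on the support of `f₀`, `1/K ≤ ∫ f₀ ≤ K`. -/
structure PoleFn {n : ℕ} {X : Type*} [TopologicalSpace X] [ChartedSpace (Cm n) X]
    [IsManifold 𝓘(ℂ, Cm n) ω X] [T2Space X] [CompactSpace X]
    (g : Chart n X → Cm n → Matrix (Fin n) (Fin n) ℂ) (U : Set X) (K : ℝ) (G f0 : X → ℝ) :
    Prop where
  smG : SmoothFn (n := n) G
  smf : SmoothFn (n := n) f0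
  one_le : ∀ x, 1 ≤ G x
  f0_nonneg : ∀ x, 0 ≤ f0 x
  eq : ∀ x, G x - lapX g G x = 1 + f0 x
  supp : tsupport f0 ⊆ U
  f0_le : ∀ x, f0 x ≤ K * G x ^ ((n : ℝ) / ((n : ℝ) - 1))
  grad_le : ∀ x ∈ tsupport f0, gradX g G G x ≤ K * G x ^ (2 + 1 / ((n : ℝ) - 1))
  mass_ge : 1 / K ≤ IX g f0
  mass_le : IX g f0 ≤ K

/-- `G^{1/(n-1)} ≥ b/2` if `G ≥ a/2`, `a = b^{n-1}` -/
lemma rpow_ge (hn : 2 ≤ n) {G a b : ℝ} (hb : 0 < b) (hab : a = b ^ (n - 1)) (hG : a / 2 ≤ G) :
    b / 2 ≤ G ^ (1 / ((n : ℝ) - 1)) := by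
  have hn1 : ((n : ℝ) - 1) = ((n - 1 : ℕ) : ℝ) := by
    rw [Nat.cast_sub (by omega)]; push_cast; ring
  have hn2 : ((n - 1 : ℕ) : ℝ) ≠ 0 := by
    have : 1 ≤ n - 1 := by omega
    positivity
  have h1 : (b / 2) ^ (n - 1) ≤ G := by
    have h2 : (2 : ℝ) ≤ 2 ^ (n - 1) := by
      calc (2 : ℝ) = 2 ^ 1 := (pow_one _).symm
        _ ≤ 2 ^ (n - 1) := pow_le_pow_right₀ (by norm_num) (by omega)
    have h3 : (b / 2) ^ (n - 1) ≤ a / 2 := by
      rw [div_pow, ← hab]
      have ha : 0 ≤ a := by rw [hab]; positivity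
      exact div_le_div_of_nonneg_left ha (by norm_num) h2
    exact h3.trans hG
  have h2 : b / 2 = ((b / 2) ^ (n - 1)) ^ (1 / ((n : ℝ) - 1)) := by
    rw [← Real.rpow_natCast, ← Real.rpow_mul (by positivity), hn1, mul_one_div_cancel hn2,
      Real.rpow_one]
  rw [h2]
  exact Real.rpow_le_rpow (by positivity) h1 (by rw [hn1]; positivity)

/-- the constant -/
def KP (n : ℕ) (B : ℝ → ℝ) (C : ℝ) : ℝ :=
  4 * C + 8 * (2 * C ^ 2 + 2 * (C + 1) * C + (C + 1) ^ 2) + 2 * MB n B + 2 / MB n B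

/-- **Step 1** for a fixed profile. -/
theorem exists_poleFn_of (hn : 2 ≤ n) (pr : Profile n S B C) (hN : NearEst n S B)
    (hF : FarEst n S) (hD : MassEst n) {X : Type} [TopologicalSpace X] [T2Space X]
    [CompactSpace X] [ChartedSpace (Cm n) X] [IsManifold 𝓘(ℂ, Cm n) ω X]
    {g : Chart n X → Cm n → Matrix (Fin n) (Fin n) ℂ} (hg : IsKahler g)
    (hR : ∀ e x, At e x →
      (-cHess (fun z => Real.log (g e z).det.re) (e x) + g e (e x)).PosSemidef)
    (x0 : X) {U : Set X} (hU : U ∈ 𝓝 x0) :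
    ∃ G f0 : X → ℝ, PoleFn g U (KP n B C) G f0 := by
  have hgH := hg.toIsHermitian
  have hx := at_chartAt (n := n) x0
  obtain ⟨Q, r, A, hQ⟩ := exists_QFun hgH hx hU
  obtain ⟨ε, hε, hε1, hεr, u, hu, heq, hu0, huM, hlow, hgrad⟩ := exists_small hn pr hN hF hgH hQ
  set f0 : X → ℝ := fun x => F0 n B ε (Q x) with hf0
  have hC1 := pr.one_le
  have hMB := MB_pos (B := B) (show 1 ≤ n by omega) pr
  set a := (ε ^ (2 * (n - 1)))⁻¹ with ha
  have ha0 : 0 < a := by positivity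
  set b := (ε ^ 2)⁻¹ with hb
  have hb0 : 0 < b := by positivity
  have hab : a = b ^ (n - 1) := by rw [ha, hb, inv_pow, ← pow_mul]
  have habn : (ε ^ (2 * n))⁻¹ = a * b := by
    rw [ha, hb, ← mul_inv, ← pow_add]
    congr 2
    omega
  have hf0s : SmoothFn (n := n) f0 :=
    sm_comp (φ := F0 n B ε) (fun x => (contDiff_F0 (n := n) pr.smB ε).contDiffAt) hQ.smooth
  have hf00 : ∀ x, 0 ≤ f0 x := fun x => F0_nonneg pr hε _
  have hf0F : ∀ x, f0 x ≤ C * (a * b) := by
    intro x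
    show (ε ^ (2 * n))⁻¹ * B (Q x / ε ^ 2) ≤ _
    rw [habn]
    have := mul_le_mul_of_nonneg_left (pr.B_le (Q x / ε ^ 2)) (mul_nonneg ha0.le hb0.le)
    linarith
  have hone : SmoothFn (n := n) (fun _ : X => (1 : ℝ)) := smoothFn_const 1
  -- the function G
  have hGs : SmoothFn (n := n) (fun x => 1 + u x) := sm_add hone hu
  have hsupp : tsupport f0 ⊆ {x | Q x ≤ ε ^ 2} := by
    refine closure_minimal ?_ (isClosed_le (sm_continuous hQ.smooth) continuous_const)
    intro x hx'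
    by_contra hc
    have h1 : ε ^ 2 < Q x := not_le.1 hc
    exact hx' (F0_eq_zero pr hε le_rfl h1)
  have hGlow : ∀ x, Q x ≤ ε ^ 2 → a / 2 ≤ 1 + u x := fun x hx' => by
    have := hlow x hx'; linarith
  have hGpos : ∀ x, 0 < 1 + u x := fun x => by have := hu0 x; linarith
  have hnm : ((n : ℝ) - 1) ≠ 0 := by
    have : (2 : ℝ) ≤ n := by exact_mod_cast hn
    linarith
  -- gradient bound
  have hgradU : ∀ x, gradX g u u x ≤
      (2 * C ^ 2 + 2 * (C + 1) * C + (C + 1) ^ 2) * (a ^ 2 * b) := by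
    intro x
    have h1 := bernstein hg hR hu hf0s heq (l := b) (M := (C + 1) * a) (F := C * (a * b))
      (D := 2 * C ^ 2 * a ^ 2 * b ^ 3) hb0 hu0 huM hf00 hf0F hgrad x
    have h2 : 2 * C ^ 2 * a ^ 2 * b ^ 3 / b ^ 2 = 2 * C ^ 2 * (a ^ 2 * b) := by
      field_simp
    rw [h2] at h1
    linarith
  have hgradG : ∀ x, gradX g (fun x => 1 + u x) (fun x => 1 + u x) x = gradX g u u x := by
    intro x
    rw [gradX_add_left hone hu, gradX_const_left, zero_add, gradX_add_right hone hu,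
      gradX_const_right, zero_add]
  set K1 := 2 * C ^ 2 + 2 * (C + 1) * C + (C + 1) ^ 2 with hK1
  have hK1p : 0 ≤ K1 := by positivity
  have hKP : KP n B C = 4 * C + 8 * K1 + 2 * MB n B + 2 / MB n B := rfl
  have hMBi : 0 < 2 / MB n B := by positivity
  refine ⟨fun x => 1 + u x, f0, ?_⟩
  refine
    { smG := hGs
      smf := hf0s
      one_le := fun x => by have := hu0 x; show 1 ≤ 1 + u x; linarith
      f0_nonneg := hf00
      eq := ?_
      supp := fun x hx' => (hQ.sub x ((hsupp hx').trans hεr)).1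
      f0_le := ?_
      grad_le := ?_
      mass_ge := ?_
      mass_le := ?_ }
  · intro x
    show 1 + u x - lapX g (fun x => 1 + u x) x = 1 + f0 x
    rw [lapX_add' hone hu, lapX_const']
    have := heq x
    show 1 + u x - (0 + lapX g u x) = 1 + F0 n B ε (Q x)
    linarith
  · intro x
    show f0 x ≤ KP n B C * (1 + u x) ^ ((n : ℝ) / ((n : ℝ) - 1))
    have hKP0 : 0 ≤ KP n B C := by rw [hKP]; positivity
    by_cases hq : Q x ≤ ε ^ 2
    · have h1 := hGlow x hq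
      have h2 := rpow_ge hn hb0 hab h1
      have h3 : (1 + u x) ^ ((n : ℝ) / ((n : ℝ) - 1)) =
          (1 + u x) * (1 + u x) ^ (1 / ((n : ℝ) - 1)) := by
        have h4 : (n : ℝ) / ((n : ℝ) - 1) = 1 + 1 / ((n : ℝ) - 1) := by field_simp; ring
        rw [h4, Real.rpow_add (hGpos x), Real.rpow_one]
      have h4 : a / 2 * (b / 2) ≤ (1 + u x) ^ ((n : ℝ) / ((n : ℝ) - 1)) := by
        rw [h3]
        exact mul_le_mul h1 h2 (by positivity) (hGpos x).le
      have h5 : f0 x ≤ 4 * C * (a / 2 * (b / 2)) := by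
        have := hf0F x; linarith
      refine h5.trans ?_
      refine mul_le_mul ?_ h4 (by positivity) hKP0
      rw [hKP]
      linarith
    · push Not at hq
      have h1 : f0 x = 0 := F0_eq_zero pr hε le_rfl hq
      rw [h1]
      exact mul_nonneg hKP0 (Real.rpow_nonneg (hGpos x).le _)
  · intro x hx'
    show gradX g (fun x => 1 + u x) (fun x => 1 + u x) x ≤
      KP n B C * (1 + u x) ^ (2 + 1 / ((n : ℝ) - 1))
    have hKP0 : 0 ≤ KP n B C := by rw [hKP]; positivity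
    have h1 := hGlow x (hsupp hx')
    have h2 := rpow_ge hn hb0 hab h1
    have h3 : (1 + u x) ^ (2 + 1 / ((n : ℝ) - 1)) =
        (1 + u x) ^ 2 * (1 + u x) ^ (1 / ((n : ℝ) - 1)) := by
      rw [Real.rpow_add (hGpos x)]
      norm_num
    have h4 : (a / 2) ^ 2 * (b / 2) ≤ (1 + u x) ^ (2 + 1 / ((n : ℝ) - 1)) := by
      rw [h3]
      exact mul_le_mul (pow_le_pow_left₀ (by positivity) h1 2) h2 (by positivity)
        (sq_nonneg _)
    rw [hgradG]
    have h5 : gradX g u u x ≤ 8 * K1 * ((a / 2) ^ 2 * (b / 2)) := by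
      have := hgradU x
      have h6 : 8 * K1 * ((a / 2) ^ 2 * (b / 2)) = K1 * (a ^ 2 * b) := by ring
      rw [h6]; exact this
    refine h5.trans ?_
    refine mul_le_mul ?_ h4 (by positivity) hKP0
    rw [hKP]
    linarith
  · have h1 := (mass_bounds hD pr hgH hx hQ hε hεr).1
    refine le_trans ?_ h1
    rw [div_le_iff₀ (by rw [hKP]; positivity)]
    have h2 : 1 = MB n B / 2 * (2 / MB n B) := by field_simp
    calc (1 : ℝ) = MB n B / 2 * (2 / MB n B) := h2
      _ ≤ MB n B / 2 * KP n B C := by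
          refine mul_le_mul_of_nonneg_left ?_ (by positivity)
          rw [hKP]
          linarith
  · have h1 := (mass_bounds hD pr hgH hx hQ hε hεr).2
    refine h1.trans ?_
    rw [hKP]
    linarith

end Vale.Agent.P272.K.AMP.Pole
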