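import Vale.Agent.P272.K.AMP.Pole.Defs
import Vale.Agent.P272.K.INT.Wirt

/-!
# The Hermitian quadratic form `qf P (z - z₀)` : derivatives and lower bound
-/

open scoped Manifold ContDiff ComplexOrder Topology ComplexConjugate
open Complex Set Filter

set_option linter.all false

noncomputable section

namespace Vale.Agent.P272.K.AMP.Pole

variable {n : ℕ} {P : Matrix (Fin n) (Fin n) ℂ} {z0 z : Cm n}

/-- `qf P ζ` as a complex number -/
lemma qf_ofReal (hP : P.IsHermitian) (ζ : Cm n) :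
    ((qf P ζ : ℝ) : ℂ) = ∑ k, (∑ j, P j k * ζ j) * conj (ζ k) := by
  have h1 : (∑ j, ∑ k, P j k * ζ j * conj (ζ k)) = ∑ k, (∑ j, P j k * ζ j) * conj (ζ k) := by
    rw [Finset.sum_comm]
    exact Finset.sum_congr rfl fun k _ => by rw [Finset.sum_mul]
  rw [← h1]
  unfold qf
  have h2 : conj (∑ j, ∑ k, P j k * ζ j * conj (ζ k)) = ∑ j, ∑ k, P j k * ζ j * conj (ζ k) := by
    simp only [map_sum]
    rw [Finset.sum_comm]
    refine Finset.sum_congr rfl fun j _ => Finset.sum_congr rfl fun k _ => ?_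
    have h3 : conj (P k j) = P j k := by
      have := congrFun (congrFun hP j) k
      rwa [Matrix.conjTranspose_apply] at this
    rw [map_mul, map_mul, h3, Complex.conj_conj]
    ring
  exact Complex.conj_eq_iff_re.1 h2

lemma dz_coord' (i k : Fin n) : dz i (fun y : Cm n => y k - z0 k) z = if i = k then 1 else 0 := by
  have h : fderiv ℝ (fun y : Cm n => y k - z0 k) z = ContinuousLinearMap.proj (R := ℝ) k := by
    have := (ContinuousLinearMap.proj (R := ℝ) (φ := fun _ : Fin n => ℂ) k).hasFDerivAt (x := z)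
    exact (this.sub_const (z0 k)).fderiv
  simp only [dz, h, ContinuousLinearMap.proj_apply, Pi.single_apply]
  by_cases hik : i = k
  · subst hik
    simp [Complex.I_mul_I]
  · have : k ≠ i := fun h => hik h.symm
    simp [hik, this]

lemma dzb_coord' (i k : Fin n) : dzb i (fun y : Cm n => y k - z0 k) z = 0 := by
  have h : fderiv ℝ (fun y : Cm n => y k - z0 k) z = ContinuousLinearMap.proj (R := ℝ) k := by
    have := (ContinuousLinearMap.proj (R := ℝ) (φ := fun _ : Fin n => ℂ) k).hasFDerivAt (x := z)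
    exact (this.sub_const (z0 k)).fderiv
  simp only [dzb, h, ContinuousLinearMap.proj_apply, Pi.single_apply]
  by_cases hik : i = k
  · subst hik
    simp [Complex.I_mul_I]
  · have : k ≠ i := fun h => hik h.symm
    simp [this]

lemma diff_coord (k : Fin n) : DifferentiableAt ℝ (fun y : Cm n => y k - z0 k) z := by
  fun_prop

lemma diff_conj_coord (k : Fin n) :
    DifferentiableAt ℝ (fun y : Cm n => conj (y k - z0 k)) z :=
  Complex.conjCLE.differentiableAt.comp z (diff_coord k)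

/-- the affine functions `ℓ_k` -/
def ell (P : Matrix (Fin n) (Fin n) ℂ) (z0 : Cm n) (k : Fin n) (y : Cm n) : ℂ :=
  ∑ j, P j k * (y j - z0 j)

lemma diff_ell (k : Fin n) : DifferentiableAt ℝ (ell P z0 k) z :=
  DifferentiableAt.fun_sum fun j _ => (diff_coord j).const_mul _

lemma dz_ell (i k : Fin n) : dz i (ell P z0 k) z = P i k := by
  have h := INT.dz_sum (i := i) (z := z) Finset.univ (F := fun j y => P j k * (y j - z0 j))
    (fun j _ => (diff_coord j).const_mul _)
  show dz i (fun y => ∑ j, P j k * (y j - z0 j)) z = _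
  rw [h]
  rw [Finset.sum_eq_single i]
  · rw [INT.dz_const_mul _ (diff_coord i), dz_coord', if_pos rfl, mul_one]
  · intro j _ hj
    rw [INT.dz_const_mul _ (diff_coord j), dz_coord', if_neg (Ne.symm hj), mul_zero]
  · simp

lemma dzb_ell (i k : Fin n) : dzb i (ell P z0 k) z = 0 := by
  have h := INT.dzb_sum (i := i) (z := z) Finset.univ (F := fun j y => P j k * (y j - z0 j))
    (fun j _ => (diff_coord j).const_mul _)
  show dzb i (fun y => ∑ j, P j k * (y j - z0 j)) z = _
  rw [h]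
  refine Finset.sum_eq_zero fun j _ => ?_
  rw [INT.dzb_const_mul _ (diff_coord j), dzb_coord', mul_zero]

lemma qf_fun_eq (hP : P.IsHermitian) :
    (fun y : Cm n => ((qf P (y - z0) : ℝ) : ℂ)) = fun y => ∑ k, ell P z0 k y * conj (y k - z0 k) := by
  funext y
  rw [qf_ofReal hP]
  rfl

lemma dzb_qf (hP : P.IsHermitian) (i : Fin n) :
    dzb i (fun y : Cm n => ((qf P (y - z0) : ℝ) : ℂ)) z = ell P z0 i z := by
  rw [qf_fun_eq hP, INT.dzb_sum (i := i) (z := z) Finset.univ
    (F := fun k y => ell P z0 k y * conj (y k - z0 k))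
    (fun k _ => (diff_ell k).mul (diff_conj_coord k))]
  have h : ∀ k, dzb i (fun y => ell P z0 k y * conj (y k - z0 k)) z =
      if i = k then ell P z0 k z else 0 := by
    intro k
    rw [INT.dzb_mul (diff_ell k) (diff_conj_coord k), dzb_ell, zero_mul, zero_add,
      INT.dzb_conj, dz_coord']
    split_ifs <;> simp
  simp only [h, Finset.sum_ite_eq, Finset.mem_univ, if_true]

lemma dz_qf (hP : P.IsHermitian) (i : Fin n) :
    dz i (fun y : Cm n => ((qf P (y - z0) : ℝ) : ℂ)) z = ∑ k, P i k * conj (z k - z0 k) := by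
  rw [qf_fun_eq hP, INT.dz_sum (i := i) (z := z) Finset.univ
    (F := fun k y => ell P z0 k y * conj (y k - z0 k))
    (fun k _ => (diff_ell k).mul (diff_conj_coord k))]
  refine Finset.sum_congr rfl fun k _ => ?_
  rw [INT.dz_mul (diff_ell k) (diff_conj_coord k), dz_ell, INT.dz_conj, dzb_coord', map_zero,
    mul_zero, add_zero]

lemma cHess_qf (hP : P.IsHermitian) : cHess (fun y : Cm n => qf P (y - z0)) z = P := by
  ext i k
  show dz i (dzb k fun y => ((qf P (y - z0) : ℝ) : ℂ)) z = P i k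
  have : (dzb k fun y : Cm n => ((qf P (y - z0) : ℝ) : ℂ)) = ell P z0 k := by
    funext y; exact dzb_qf hP k
  rw [this, dz_ell]

lemma contDiff_qf : ContDiff ℝ ∞ (fun y : Cm n => qf P (y - z0)) := by
  unfold qf
  refine Complex.reCLM.contDiff.comp ?_
  refine ContDiff.sum fun j _ => ContDiff.sum fun k _ => ?_
  refine (contDiff_const.mul ?_).mul ?_
  · exact (ContinuousLinearMap.proj (R := ℝ) (φ := fun _ : Fin n => ℂ) j).contDiff.comp
      (contDiff_id.sub contDiff_const)
  · exact Complex.conjCLE.contDiff.comp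
      ((ContinuousLinearMap.proj (R := ℝ) (φ := fun _ : Fin n => ℂ) k).contDiff.comp
      (contDiff_id.sub contDiff_const))

lemma qf_eq_dot (ζ : Cm n) : qf P ζ = (star (star ζ) ⬝ᵥ (P.mulVec (star ζ))).re := by
  unfold qf
  congr 1
  simp only [dotProduct, Matrix.mulVec, star_star, Finset.mul_sum, Pi.star_apply]
  refine Finset.sum_congr rfl fun j _ => Finset.sum_congr rfl fun k _ => ?_
  show _ = ζ j * (P j k * conj (ζ k))
  ring

lemma qf_pos (hP : P.PosDef) {ζ : Cm n} (h : ζ ≠ 0) : 0 < qf P ζ := by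
  rw [qf_eq_dot]
  have h1 : star ζ ≠ 0 := fun h0 => h (by simpa using congrArg star h0)
  exact (Complex.lt_def.1 (hP.dotProduct_mulVec_pos h1)).1

lemma qf_zero : qf P 0 = 0 := by simp [qf]

lemma qf_nonneg (hP : P.PosDef) (ζ : Cm n) : 0 ≤ qf P ζ := by
  by_cases h : ζ = 0
  · rw [h, qf_zero]
  · exact (qf_pos hP h).le

lemma qf_smul (t : ℝ) (ζ : Cm n) : qf P ((t : ℂ) • ζ) = t ^ 2 * qf P ζ := by
  unfold qf
  have : ∑ j, ∑ k, P j k * ((t : ℂ) • ζ) j * conj (((t : ℂ) • ζ) k) =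
      ((t ^ 2 : ℝ) : ℂ) * ∑ j, ∑ k, P j k * ζ j * conj (ζ k) := by
    rw [Finset.mul_sum]
    refine Finset.sum_congr rfl fun j _ => ?_
    rw [Finset.mul_sum]
    refine Finset.sum_congr rfl fun k _ => ?_
    simp only [Pi.smul_apply, smul_eq_mul, map_mul, Complex.conj_ofReal]
    push_cast
    ring
  rw [this, Complex.re_ofReal_mul]

lemma continuous_qf : Continuous (qf P) := by
  unfold qf
  fun_prop

/-- lower bound -/
lemma exists_qf_ge (hP : P.PosDef) : ∃ c : ℝ, 0 < c ∧ ∀ ζ : Cm n, c * ‖ζ‖ ^ 2 ≤ qf P ζ := by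
  by_cases hn : ∃ v : Cm n, v ≠ 0
  · obtain ⟨v, hv⟩ := hn
    have hv' : ‖v‖ ≠ 0 := norm_ne_zero_iff.2 hv
    have hS : (Metric.sphere (0 : Cm n) 1).Nonempty := by
      refine ⟨((‖v‖⁻¹ : ℝ) : ℂ) • v, ?_⟩
      rw [mem_sphere_zero_iff_norm, norm_smul, Complex.norm_real, norm_inv, norm_norm,
        inv_mul_cancel₀ hv']
    obtain ⟨w, hw, hmin⟩ := (isCompact_sphere (0 : Cm n) 1).exists_isMinOn hS
      (continuous_qf (P := P)).continuousOn
    have hw1 : ‖w‖ = 1 := by simpa using hw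
    have hw0 : w ≠ 0 := by
      intro h; rw [h, norm_zero] at hw1; exact zero_ne_one hw1
    refine ⟨qf P w, qf_pos hP hw0, fun ζ => ?_⟩
    by_cases hζ : ζ = 0
    · rw [hζ, qf_zero]; simp
    have hζ' : 0 < ‖ζ‖ := norm_pos_iff.2 hζ
    have h1 : ((‖ζ‖⁻¹ : ℝ) : ℂ) • ζ ∈ Metric.sphere (0 : Cm n) 1 := by
      rw [mem_sphere_zero_iff_norm, norm_smul, Complex.norm_real, norm_inv, norm_norm,
        inv_mul_cancel₀ hζ'.ne']
    have h2 : qf P w ≤ qf P (((‖ζ‖⁻¹ : ℝ) : ℂ) • ζ) := hmin h1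
    rw [qf_smul] at h2
    have h3 : ‖ζ‖⁻¹ ^ 2 * qf P ζ * ‖ζ‖ ^ 2 = qf P ζ := by field_simp
    nlinarith [mul_le_mul_of_nonneg_right h2 (sq_nonneg ‖ζ‖)]
  · push Not at hn
    exact ⟨1, one_pos, fun ζ => by rw [hn ζ, qf_zero]; simp⟩

/-- the gradient matrix of `q` paired with `P⁻¹` is `q` -/
lemma trace_grad_qf (hP : P.PosDef) :
    (P⁻¹ * Matrix.of fun i j => (∑ k, P i k * conj (z k - z0 k)) * ell P z0 j z).trace =
      ((qf P (z - z0) : ℝ) : ℂ) := by
  have hdet : IsUnit P.det := (Matrix.isUnit_iff_isUnit_det P).1 hP.isUnit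
  have h1 : (Matrix.of fun i j => (∑ k, P i k * conj (z k - z0 k)) * ell P z0 j z) =
      P * Matrix.of fun i j => conj (z i - z0 i) * ell P z0 j z := by
    ext i j
    simp only [Matrix.mul_apply, Matrix.of_apply, Finset.sum_mul]
    exact Finset.sum_congr rfl fun k _ => by ring
  rw [h1, ← Matrix.mul_assoc, Matrix.nonsing_inv_mul _ hdet, Matrix.one_mul,
    qf_ofReal hP.isHermitian]
  simp only [Matrix.trace, Matrix.diag, Matrix.of_apply]
  refine Finset.sum_congr rfl fun k _ => ?_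
  rw [mul_comm]
  rfl

end Vale.Agent.P272.K.AMP.Pole
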