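import Vale.Agent.P272.K.AMP.Pole.Small
import Vale.Agent.P272.K.AMP.Pole.Quad
import Vale.Agent.P272.K.AMP.Green2

/-!
# Block E3: the mass of `f₀`
-/

open scoped Manifold ContDiff ComplexOrder Topology ComplexConjugate
open Complex Set Filter MeasureTheory

set_option linter.all false

noncomputable section

namespace Vale.Agent.P272.K.AMP.Pole

variable {n : ℕ} {S B : ℝ → ℝ} {C : ℝ}

/-- the model mass -/
def MB (n : ℕ) (B : ℝ → ℝ) : ℝ := ∫ z : Cm n, B (∑ i, ‖z i‖ ^ 2)

lemma F0_eq_zero (pr : Profile n S B C) {ε t r : ℝ} (hε : 0 < ε) (hr : ε ^ 2 ≤ r) (ht : r < t) :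
    F0 n B ε t = 0 := by
  have : B (t / ε ^ 2) = 0 := by
    apply pr.B_supp
    right
    rw [le_div_iff₀ (by positivity)]
    nlinarith [sq_nonneg ε]
  rw [F0, this, mul_zero]

lemma F0_nonneg (pr : Profile n S B C) {ε : ℝ} (hε : 0 < ε) (t : ℝ) : 0 ≤ F0 n B ε t :=
  mul_nonneg (by positivity) (pr.B_nonneg _)

lemma MB_pos (hn : 1 ≤ n) (pr : Profile n S B C) : 0 < MB n B := by
  unfold MB
  have hc : Continuous fun z : Cm n => B (∑ i, ‖z i‖ ^ 2) :=
    pr.smB.continuous.comp (by fun_prop)
  refine hc.integral_pos_of_hasCompactSupport_nonneg_nonzero ?_ (fun z => pr.B_nonneg _)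
    (x := Pi.single ⟨0, hn⟩ ((√(1 / 2) : ℝ) : ℂ)) ?_
  · refine HasCompactSupport.intro (isCompact_closedBall (0 : Cm n) 1) fun z hz => ?_
    apply pr.B_supp
    right
    rw [mem_closedBall_zero_iff, not_le] at hz
    obtain ⟨i, hi⟩ : ∃ i, 1 < ‖z i‖ := by
      by_contra hc
      push Not at hc
      exact absurd ((pi_norm_le_iff_of_nonneg zero_le_one).2 hc) (not_le.2 hz)
    have h1 : ‖z i‖ ^ 2 ≤ ∑ i, ‖z i‖ ^ 2 :=
      Finset.single_le_sum (f := fun i => ‖z i‖ ^ 2) (fun i _ => sq_nonneg _) (Finset.mem_univ i)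
    nlinarith
  · have h1 : ∑ i, ‖(Pi.single ⟨0, hn⟩ ((√(1 / 2) : ℝ) : ℂ) : Cm n) i‖ ^ 2 = 1 / 2 := by
      rw [Finset.sum_eq_single ⟨0, hn⟩]
      · rw [Pi.single_eq_same, Complex.norm_real, Real.norm_eq_abs, sq_abs,
          Real.sq_sqrt (by norm_num)]
      · intro j _ hj
        rw [Pi.single_eq_of_ne hj]; simp
      · simp
    rw [h1]
    exact pr.B_half.ne'

variable {X : Type} [TopologicalSpace X] [ChartedSpace (Cm n) X]
  [IsManifold 𝓘(ℂ, Cm n) ω X] {g : Chart n X → Cm n → Matrix (Fin n) (Fin n) ℂ}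
  {e : Chart n X} {x0 : X} {U : Set X} {Q : X → ℝ} {r A : ℝ}

/-- **Block E3.** -/
theorem mass_bounds [CompactSpace X] [T2Space X] (hD : MassEst n) (pr : Profile n S B C)
    (hg : IsHermitian g) (hx : At e x0) (hQ : QFun g e x0 U Q r A) {ε : ℝ} (hε : 0 < ε)
    (hεr : ε ^ 2 ≤ r) :
    MB n B / 2 ≤ IX g (fun x => F0 n B ε (Q x)) ∧ IX g (fun x => F0 n B ε (Q x)) ≤ 2 * MB n B := by
  set z0 := e x0 with hz0
  set P := g e z0 with hPd
  have hP : P.PosDef := hg.posDef e x0 hx
  have hdetP : 0 < P.det.re := (Complex.lt_def.1 hP.det_pos).1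
  have hQc : Continuous Q := sm_continuous hQ.smooth
  have hFc : Continuous (F0 n B ε) := (contDiff_F0 (n := n) pr.smB ε).continuous
  obtain ⟨l, hl, hql⟩ := exists_qf_ge hP
  let H : Cm n → ℝ := fun z => F0 n B ε (qf P (z - z0)) * (g e z).det.re
  have hqc : Continuous fun z : Cm n => qf P (z - z0) := contDiff_qf.continuous
  -- the function in the chart
  have hI : IX g (fun x => F0 n B ε (Q x)) = ∫ z, H z := by
    have h1 : IX g (fun x => F0 n B ε (Q x)) =
        ∫ z in e.target, F0 n B ε (Q (e.symm z)) * (g e z).det.re := by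
      refine INT.intX_of_support (isDensity_IX hg (hFc.comp hQc)) hx.1 (K := {x | Q x ≤ r})
        (isClosed_le hQc continuous_const) (fun x hxr => (hQ.sub x hxr).2) ?_
      intro e' x hx' hxr
      have h2 : r < Q x := not_le.1 hxr
      show F0 n B ε (Q (e'.symm (e' x))) * _ = 0
      rw [e'.left_inv hx'.2, F0_eq_zero pr hε hεr h2, zero_mul]
    rw [h1]
    have h2 : ∫ z in e.target, F0 n B ε (Q (e.symm z)) * (g e z).det.re = ∫ z in e.target, H z := by
      refine setIntegral_congr_fun e.open_target.measurableSet fun z hz => ?_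
      show _ = F0 n B ε (qf P (z - z0)) * _
      congr 1
      by_cases hq : qf P (z - z0) ≤ r
      · rw [(hQ.small z hq).2]
      · push Not at hq
        have h3 : r < Q (e.symm z) := by
          by_contra hc
          push Not at hc
          have := hQ.eq _ hc
          rw [e.right_inv hz] at this
          linarith
        rw [F0_eq_zero pr hε hεr h3, F0_eq_zero pr hε hεr hq]
    rw [h2]
    refine setIntegral_eq_integral_of_forall_compl_eq_zero fun z hz => ?_
    have hq : r < qf P (z - z0) := by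
      by_contra hc
      push Not at hc
      exact hz (hQ.small z hc).1
    show F0 n B ε (qf P (z - z0)) * _ = 0
    rw [F0_eq_zero pr hε hεr hq, zero_mul]
  have hcs : ∀ z, z ∉ Metric.closedBall z0 (√(r / l)) → r < qf P (z - z0) := by
    intro z hz
    rw [Metric.mem_closedBall, not_le, dist_eq_norm] at hz
    have hr := hQ.r_pos
    have h1 : √(r / l) ^ 2 < ‖z - z0‖ ^ 2 := pow_lt_pow_left₀ hz (Real.sqrt_nonneg _) (by norm_num)
    rw [Real.sq_sqrt (by positivity), div_lt_iff₀ hl] at h1
    have h2 := hql (z - z0)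
    linarith
  have hHc : Continuous H := by
    rw [continuous_iff_continuousAt]
    intro z
    by_cases hq : qf P (z - z0) ≤ r
    · have hz := (hQ.small z hq).1
      have h1 : ContinuousAt (fun y => (g e y).det.re) z := by
        have h2 : ContDiffAt ℝ ∞ (fun y => (g e y).det) z := by
          refine contDiffAt_det fun i j => ?_
          have := hg.smooth e (e.symm z) ⟨hx.1, e.map_target hz⟩ i j
          rwa [e.right_inv hz] at this
        exact Complex.continuous_re.continuousAt.comp h2.continuousAt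
      exact (hFc.comp hqc).continuousAt.mul h1
    · push Not at hq
      have h1 : H =ᶠ[𝓝 z] fun _ => 0 := by
        filter_upwards [(isOpen_lt continuous_const hqc).mem_nhds hq] with y hy
        show F0 n B ε (qf P (y - z0)) * _ = 0
        rw [F0_eq_zero pr hε hεr hy, zero_mul]
      exact continuousAt_const.congr h1.symm
  have hHi : Integrable H := by
    refine hHc.integrable_of_hasCompactSupport (HasCompactSupport.intro
      (isCompact_closedBall z0 (√(r / l))) fun z hz => ?_)
    show F0 n B ε (qf P (z - z0)) * _ = 0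
    rw [F0_eq_zero pr hε hεr (hcs z hz), zero_mul]
  have hMi : Integrable fun z => F0 n B ε (qf P (z - z0)) * P.det.re := by
    refine ((hFc.comp hqc).mul continuous_const).integrable_of_hasCompactSupport
      (HasCompactSupport.intro (isCompact_closedBall z0 (√(r / l))) fun z hz => ?_)
    show F0 n B ε (qf P (z - z0)) * _ = 0
    rw [F0_eq_zero pr hε hεr (hcs z hz), zero_mul]
  -- the model integral
  have hM : ∫ z, F0 n B ε (qf P (z - z0)) * P.det.re = MB n B := by
    rw [integral_sub_right_eq_self (fun z : Cm n => F0 n B ε (qf P z) * P.det.re) z0]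
    have h1 : ∀ z : Cm n, F0 n B ε (qf P z) * P.det.re =
        (ε ^ (2 * n))⁻¹ * (B (qf P z / ε ^ 2) * P.det.re) := fun z => by rw [F0]; ring
    simp only [h1]
    rw [integral_const_mul, hD B P ε pr.smB.continuous hP hε, ← mul_assoc,
      inv_mul_cancel₀ (by positivity), one_mul]
    rfl
  have hlo : ∀ z, F0 n B ε (qf P (z - z0)) * P.det.re / 2 ≤ H z := by
    intro z
    by_cases hq : qf P (z - z0) ≤ r
    · have h1 := (hQ.det_le z hq).2
      have h2 := F0_nonneg pr hε (qf P (z - z0))
      have h3 := mul_le_mul_of_nonneg_left h1 h2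
      show _ ≤ F0 n B ε (qf P (z - z0)) * (g e z).det.re
      linarith
    · push Not at hq
      show _ ≤ F0 n B ε (qf P (z - z0)) * (g e z).det.re
      rw [F0_eq_zero pr hε hεr hq]; simp
  have hup : ∀ z, H z ≤ 2 * (F0 n B ε (qf P (z - z0)) * P.det.re) := by
    intro z
    by_cases hq : qf P (z - z0) ≤ r
    · have h1 := (hQ.det_le z hq).1
      have h2 := F0_nonneg pr hε (qf P (z - z0))
      have h3 := mul_le_mul_of_nonneg_left h1 h2
      show F0 n B ε (qf P (z - z0)) * (g e z).det.re ≤ _
      linarith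
    · push Not at hq
      show F0 n B ε (qf P (z - z0)) * (g e z).det.re ≤ _
      rw [F0_eq_zero pr hε hεr hq]; simp
  rw [hI]
  constructor
  · have := integral_mono (hMi.div_const 2) hHi hlo
    rwa [integral_div, hM] at this
  · have := integral_mono hHi (hMi.const_mul 2) hup
    rwa [integral_const_mul, hM] at this

end Vale.Agent.P272.K.AMP.Pole
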