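import Vale.Agent.P272.K.AMP.Pole.Barrier
import Vale.Agent.P272.K.AMP.LinSolve

/-!
# Block E2: the pole function for small `ε`: bounds
-/

open scoped Manifold ContDiff ComplexOrder Topology ComplexConjugate
open Complex Set Filter

set_option linter.all false

noncomputable section

namespace Vale.Agent.P272.K.AMP.Pole

variable {n : ℕ} {S B : ℝ → ℝ} {C : ℝ}

/-- the density `f₀` -/
def F0 (n : ℕ) (B : ℝ → ℝ) (ε t : ℝ) : ℝ := (ε ^ (2 * n))⁻¹ * B (t / ε ^ 2)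

lemma contDiff_F0 (hB : ContDiff ℝ ∞ B) (ε : ℝ) : ContDiff ℝ ∞ (F0 n B ε) :=
  contDiff_const.mul (hB.comp (contDiff_id.div_const _))

/-- `He ≤ a/4` for small `ε` -/
lemma He_le (hn : 2 ≤ n) {ε t : ℝ} (hε : 0 < ε) (hε4 : ε ^ 2 ≤ (1 / 4) ^ 4) (ht : 0 ≤ t) :
    He n ε t ≤ (ε ^ (2 * (n - 1)))⁻¹ / 4 := by
  have hn' : (2 : ℝ) ≤ n := by exact_mod_cast hn
  have hε2 : 0 < ε ^ 2 := by positivity
  have h1 : He n ε t ≤ (ε ^ 2) ^ (-((n : ℝ) - 5 / 4)) := by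
    unfold He
    exact Real.rpow_le_rpow_of_nonpos hε2 (by linarith) (by linarith)
  have h2 : (ε ^ 2) ^ (-((n : ℝ) - 5 / 4)) = (ε ^ (2 * (n - 1)))⁻¹ * (ε ^ 2) ^ (1 / 4 : ℝ) := by
    have h3 : -((n : ℝ) - 5 / 4) = -((n - 1 : ℕ) : ℝ) + 1 / 4 := by
      rw [Nat.cast_sub (by omega)]; push_cast; ring
    rw [h3, Real.rpow_add hε2, Real.rpow_neg hε2.le, Real.rpow_natCast, ← pow_mul]
  have h3 : (ε ^ 2) ^ (1 / 4 : ℝ) ≤ 1 / 4 := by
    calc (ε ^ 2) ^ (1 / 4 : ℝ) ≤ (((1 : ℝ) / 4) ^ 4) ^ (1 / 4 : ℝ) :=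
          Real.rpow_le_rpow hε2.le hε4 (by norm_num)
      _ = 1 / 4 := by
          rw [← Real.rpow_natCast, ← Real.rpow_mul (by norm_num)]
          norm_num
  rw [h2] at h1
  refine h1.trans ?_
  have h4 : 0 < (ε ^ (2 * (n - 1)))⁻¹ := by positivity
  nlinarith

variable {X : Type} [TopologicalSpace X] [ChartedSpace (Cm n) X]
  [IsManifold 𝓘(ℂ, Cm n) ω X] {g : Chart n X → Cm n → Matrix (Fin n) (Fin n) ℂ}
  {e : Chart n X} {x0 : X} {U : Set X} {Q : X → ℝ} {r A : ℝ}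

/-- `|∂f₀|² ≤ 2 C² a² b³` -/
lemma grad_F0_le (hn : 2 ≤ n) (pr : Profile n S B C) (hg : IsHermitian g)
    (hQ : QFun g e x0 U Q r A)
    {ε : ℝ} (hε : 0 < ε) (hεr : ε ^ 2 ≤ r) (hεA : A * ε ≤ 1) (x : X) :
    gradX g (fun x => F0 n B ε (Q x)) (fun x => F0 n B ε (Q x)) x ≤
      2 * C ^ 2 * ((ε ^ (2 * (n - 1)))⁻¹) ^ 2 * ((ε ^ 2)⁻¹) ^ 3 := by
  have hBd : Differentiable ℝ B := pr.smB.differentiable (by simp)
  have hd : ∀ t, deriv (F0 n B ε) t = (ε ^ (2 * n))⁻¹ * (deriv B (t / ε ^ 2) * (ε ^ 2)⁻¹) := by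
    intro t
    have h1 : HasDerivAt (fun t : ℝ => t / ε ^ 2) (1 / ε ^ 2) t := (hasDerivAt_id t).div_const _
    have h2 := ((hBd (t / ε ^ 2)).hasDerivAt.comp t h1).const_mul (ε ^ (2 * n))⁻¹
    rw [one_div] at h2
    exact h2.deriv
  have hdiff : DifferentiableAt ℝ (F0 n B ε) (Q x) :=
    (contDiff_F0 (n := n) pr.smB ε).differentiable (by simp) _
  have hF : SmoothFn (n := n) (fun x => F0 n B ε (Q x)) :=
    sm_comp (φ := F0 n B ε) (fun x => (contDiff_F0 (n := n) pr.smB ε).contDiffAt) hQ.smooth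
  rw [gradX_comp_left hdiff hQ.smooth, gradX_comp_right hdiff hQ.smooth]
  have hN0 := gradX_self_nonneg hg.posDef Q x
  have hp : (ε ^ (2 * n))⁻¹ = (ε ^ (2 * (n - 1)))⁻¹ * (ε ^ 2)⁻¹ := by
    rw [← mul_inv, ← pow_add]
    congr 2
    omega
  by_cases hx : Q x ≤ ε ^ 2
  · have hgr := (abs_le.1 (hQ.grad x (hx.trans hεr))).2
    have hQ0 := hQ.nonneg x
    have hs : √(Q x) ≤ ε := by
      rw [← Real.sqrt_sq hε.le]; exact Real.sqrt_le_sqrt hx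
    have hN : gradX g Q Q x ≤ 2 * ε ^ 2 := by
      have h1 : A * (Q x * √(Q x)) ≤ Q x := by
        have h2 : A * √(Q x) ≤ 1 := (mul_le_mul_of_nonneg_left hs hQ.A_nonneg).trans hεA
        nlinarith
      linarith
    rw [hd, hp]
    set a := (ε ^ (2 * (n - 1)))⁻¹ with ha
    have ha0 : 0 < a := by positivity
    set d := deriv B (Q x / ε ^ 2) with hdd
    have hd2 : d ^ 2 ≤ C ^ 2 := by
      rw [← sq_abs d]
      exact pow_le_pow_left₀ (abs_nonneg _) (pr.dB_le _) 2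
    have hb0 : 0 < (ε ^ 2)⁻¹ := by positivity
    have hbe : (ε ^ 2)⁻¹ * ε ^ 2 = 1 := inv_mul_cancel₀ (by positivity)
    set b := (ε ^ 2)⁻¹ with hb
    calc a * b * (d * b) * (a * b * (d * b) * gradX g Q Q x)
        = d ^ 2 * ((a * b * b) ^ 2 * gradX g Q Q x) := by ring
      _ ≤ C ^ 2 * ((a * b * b) ^ 2 * (2 * ε ^ 2)) := by
          refine mul_le_mul hd2 (mul_le_mul_of_nonneg_left hN (sq_nonneg _)) ?_ (sq_nonneg _)
          exact mul_nonneg (sq_nonneg _) hN0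
      _ = 2 * C ^ 2 * a ^ 2 * b ^ 3 * (b * ε ^ 2) := by ring
      _ = _ := by rw [hbe, mul_one]
  · push Not at hx
    have h0 : deriv B (Q x / ε ^ 2) = 0 := by
      have h1 : (3:ℝ) / 4 < Q x / ε ^ 2 := by
        rw [lt_div_iff₀ (by positivity)]; nlinarith [sq_nonneg ε]
      have h2 : B =ᶠ[𝓝 (Q x / ε ^ 2)] fun _ => 0 := by
        filter_upwards [lt_mem_nhds h1] with y hy
        exact pr.B_supp y (Or.inr hy.le)
      rw [h2.deriv_eq]; simp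
    rw [hd, h0]
    simp only [zero_mul, mul_zero]
    positivity

/-- **Block E2.** -/
theorem exists_small [CompactSpace X] [T2Space X] (hn : 2 ≤ n) (pr : Profile n S B C)
    (hN : NearEst n S B) (hF : FarEst n S) (hg : IsHermitian g) (hQ : QFun g e x0 U Q r A) :
    ∃ ε : ℝ, 0 < ε ∧ ε ≤ 1 ∧ ε ^ 2 ≤ r ∧ ∃ u : X → ℝ, SmoothFn (n := n) u ∧
      (∀ x, u x - lapX g u x = F0 n B ε (Q x)) ∧ (∀ x, 0 ≤ u x) ∧
      (∀ x, u x ≤ (C + 1) * (ε ^ (2 * (n - 1)))⁻¹) ∧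
      (∀ x, Q x ≤ ε ^ 2 → (ε ^ (2 * (n - 1)))⁻¹ / 2 ≤ u x) ∧
      ∀ x, gradX g (fun x => F0 n B ε (Q x)) (fun x => F0 n B ε (Q x)) x ≤
        2 * C ^ 2 * ((ε ^ (2 * (n - 1)))⁻¹) ^ 2 * ((ε ^ 2)⁻¹) ^ 3 := by
  obtain ⟨C', hC', ε0, hε0, hε01, hbar⟩ := barrier pr hN hF hg hQ
  have hr := hQ.r_pos
  have hA := hQ.A_nonneg
  -- choice of ε
  obtain ⟨ε, hε, h1, h2, h3, h4, h5⟩ : ∃ ε : ℝ, 0 < ε ∧ ε ≤ ε0 ∧ ε ^ 2 ≤ r ∧ A * ε ≤ 1 ∧
      ε ^ 2 ≤ (1 / 4) ^ 4 ∧ C' * ε ^ 2 ≤ 1 / 4 := by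
    have c1 : ∀ᶠ ε in 𝓝[>] (0 : ℝ), ε ≤ ε0 :=
      (gt_mem_nhds hε0).filter_mono nhdsWithin_le_nhds |>.mono fun _ h => le_of_lt h
    have c2 : ∀ᶠ ε in 𝓝[>] (0 : ℝ), ε ^ 2 ≤ r := by
      have : Tendsto (fun ε : ℝ => ε ^ 2) (𝓝 0) (𝓝 0) := by
        have := (continuous_pow 2).tendsto (0 : ℝ); simpa using this
      exact ((this.eventually (gt_mem_nhds hr)).filter_mono nhdsWithin_le_nhds).mono
        fun _ h => le_of_lt h
    have c3 : ∀ᶠ ε in 𝓝[>] (0 : ℝ), A * ε ≤ 1 := by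
      have : Tendsto (fun ε : ℝ => A * ε) (𝓝 0) (𝓝 0) := by
        have := (continuous_const_mul A).tendsto (0 : ℝ); simpa using this
      exact ((this.eventually (gt_mem_nhds one_pos)).filter_mono nhdsWithin_le_nhds).mono
        fun _ h => le_of_lt h
    have c4 : ∀ᶠ ε in 𝓝[>] (0 : ℝ), ε ^ 2 ≤ ((1 : ℝ) / 4) ^ 4 := by
      have : Tendsto (fun ε : ℝ => ε ^ 2) (𝓝 0) (𝓝 0) := by
        have := (continuous_pow 2).tendsto (0 : ℝ); simpa using this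
      exact ((this.eventually (gt_mem_nhds (by norm_num : (0:ℝ) < (1 / 4) ^ 4))).filter_mono
        nhdsWithin_le_nhds).mono fun _ h => le_of_lt h
    have c5 : ∀ᶠ ε in 𝓝[>] (0 : ℝ), C' * ε ^ 2 ≤ 1 / 4 := by
      have : Tendsto (fun ε : ℝ => C' * ε ^ 2) (𝓝 0) (𝓝 0) := by
        have := (continuous_const.mul (continuous_pow 2)).tendsto (0 : ℝ) (f := fun ε : ℝ => C' * ε ^ 2)
        simpa using this
      exact ((this.eventually (gt_mem_nhds (by norm_num : (0:ℝ) < 1 / 4))).filter_mono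
        nhdsWithin_le_nhds).mono fun _ h => le_of_lt h
    have c0 : ∀ᶠ ε in 𝓝[>] (0 : ℝ), 0 < ε := self_mem_nhdsWithin
    obtain ⟨ε, h0, h1, h2, h3, h4, h5⟩ := (c0.and (c1.and (c2.and (c3.and (c4.and c5))))).exists
    exact ⟨ε, h0, h1, h2, h3, h4, h5⟩
  have hε1 : ε ≤ 1 := h1.trans hε01
  have hF0 : SmoothFn (n := n) (fun x => F0 n B ε (Q x)) :=
    sm_comp (φ := F0 n B ε) (fun x => (contDiff_F0 (n := n) pr.smB ε).contDiffAt) hQ.smooth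
  obtain ⟨u, hu, heq⟩ := exists_solve hg hF0
  have hb := hbar ε hε h1 u hu heq
  set a := (ε ^ (2 * (n - 1)))⁻¹ with ha
  have ha0 : 0 < a := by positivity
  -- C' ≤ a / 4
  have hCa : C' ≤ a / 4 := by
    have h6 : ε ^ (2 * (n - 1)) ≤ ε ^ 2 := pow_le_pow_of_le_one hε.le hε1 (by omega)
    have h7 : C' * ε ^ (2 * (n - 1)) ≤ 1 / 4 := (mul_le_mul_of_nonneg_left h6 hC').trans h5
    rw [ha, div_eq_mul_inv, inv_mul_eq_div, le_div_iff₀ (by positivity)]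
    linarith
  have hC1 := pr.one_le
  refine ⟨ε, hε, hε1, h2, u, hu, heq, ?_, ?_, ?_, ?_⟩
  · intro x
    have h0 := smoothFn_const (n := n) (X := X) 0
    have := le_of_sub_lap_le_sub_lap (g := g) hg.posDef h0 hu (fun x => by
      rw [lapX_const', heq x]
      have : 0 ≤ F0 n B ε (Q x) := mul_nonneg (by positivity) (pr.B_nonneg _)
      linarith) x
    exact this
  · intro x
    have h6 := (abs_le.1 (hb x)).2
    have h7 := He_le hn hε h4 (hQ.nonneg x)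
    have h8 : Fe n S ε (Q x) ≤ a * C := mul_le_mul_of_nonneg_left (pr.S_le _) ha0.le
    have h9 : u x ≤ a * C + a / 4 + a / 4 := by linarith
    nlinarith
  · intro x hx
    have h6 := (abs_le.1 (hb x)).1
    have h7 := He_le hn hε h4 (hQ.nonneg x)
    have h8 : a * 1 ≤ Fe n S ε (Q x) := by
      refine mul_le_mul_of_nonneg_left (pr.S_ge _ ?_) ha0.le
      rw [div_le_one (by positivity)]; exact hx
    linarith
  · exact fun x => grad_F0_le hn pr hg hQ hε h2 h3 x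

end Vale.Agent.P272.K.AMP.Pole
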